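import Vale.Agent.P261.H621.ELoc1

/-!
# P261 (second hand-in): the `E`-localization of a `K_h`-localized `P`-module

`N` a `P`-module with `p` nilpotent, `N' = L_{K_h} N`, `h = k + 1`.

* `isIso_vh`: `v_h` is invertible on `N'`; `isZero_gk'`: `N' ⊗ G_1 ⊗ ⋯ ⊗ G_h = 0`;
* `isIso_u_gk`: `N ⊗ G_1 ⊗ ⋯ ⊗ G_k ⊗ Tl_h ≅ N' ⊗ G_1 ⊗ ⋯ ⊗ G_k ⊗ Tl_h`;
* `descend`: a class closed under extensions and retracts which contains the objects
  `N' ⊗ G_1 ⊗ ⋯ ⊗ G_j ⊗ Tl_{j+1}`, `j ≤ k`, contains `N'`;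
* `kc_of_mod`, `thk_of_mod`.
-/

open CategoryTheory MonoidalCategory Limits MonObj Pretriangulated

set_option linter.unusedSectionVars false

universe v u

namespace Vale.Agent.P261.H621

open Vale.Agent.P251 Vale.Agent.P251.T Vale.Agent.P251.S

variable {T : Type u} [Category.{v} T] [Preadditive T] [HasZeroObject T] [HasShift T ℤ]
  [∀ n : ℤ, (shiftFunctor T n).Additive] [Pretriangulated T]
  [MonoidalCategory T] [SymmetricCategory T] [TensorTriangulated T] [MonoidalClosed T]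
  [HasCoproducts.{0} T]

section nilp

/-- `p` is nilpotent on `X` -/
def PNil (p : ℤ) (X : T) : Prop := ∃ k : ℕ, p ^ k • 𝟙 X = 0

theorem PNil.tensor_right {p : ℤ} {X : T} (h : PNil p X) (Y : T) : PNil p (X ⊗ Y) := by
  obtain ⟨k, hk⟩ := h
  refine ⟨k, ?_⟩
  rw [← id_whiskerRight]
  have : (p ^ k • 𝟙 X) ▷ Y = p ^ k • (𝟙 X ▷ Y) := (tensorRight Y).map_zsmul
  rw [← this, hk]
  exact MonoidalPreadditive.zero_whiskerRight

theorem PNil.ext {p : ℤ} {X Y Z : T} {f : X ⟶ Y} {g : Y ⟶ Z} {w : Z ⟶ X⟦(1 : ℤ)⟧}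
    (hΔ : Triangle.mk f g w ∈ distTriang T) (hX : PNil p X) (hZ : PNil p Z) : PNil p Y := by
  obtain ⟨a, ha⟩ := hX
  obtain ⟨b, hb⟩ := hZ
  obtain ⟨c, hc⟩ := Triangle.coyoneda_exact₂ _ hΔ (p ^ b • 𝟙 Y) (by
    change (p ^ b • 𝟙 Y) ≫ g = 0
    rw [Preadditive.zsmul_comp, Category.id_comp, ← Category.comp_id g, ← Preadditive.comp_zsmul,
      hb, comp_zero])
  change Y ⟶ X at c
  replace hc : p ^ b • 𝟙 Y = c ≫ f := hc
  refine ⟨a + b, ?_⟩
  rw [pow_add, mul_smul, hc, ← Preadditive.comp_zsmul]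
  have h1 : p ^ a • f = 0 := by
    rw [← Category.id_comp f, ← Preadditive.zsmul_comp, ha, zero_comp]
  rw [h1, comp_zero]

theorem PNil.shift {p : ℤ} {X : T} (h : PNil p X) (n : ℤ) : PNil p (X⟦n⟧) := by
  obtain ⟨k, hk⟩ := h
  refine ⟨k, ?_⟩
  rw [← CategoryTheory.Functor.map_id, ← Functor.map_zsmul, hk, Functor.map_zero]

theorem PNil.cof {p : ℤ} {X Y Z : T} {f : X ⟶ Y} {g : Y ⟶ Z} {w : Z ⟶ X⟦(1 : ℤ)⟧}
    (hΔ : Triangle.mk f g w ∈ distTriang T) (hX : PNil p X) (hY : PNil p Y) : PNil p Z :=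
  PNil.ext (rot_of_distTriang _ hΔ) hY (hX.shift 1)

theorem PNil.retract {p : ℤ} {X Y : T} (i : X ⟶ Y) (r : Y ⟶ X) (hir : i ≫ r = 𝟙 X)
    (hY : PNil p Y) : PNil p X := by
  obtain ⟨k, hk⟩ := hY
  refine ⟨k, ?_⟩
  rw [← hir, ← Preadditive.zsmul_comp]
  have h1 : p ^ k • i = 0 := by
    rw [← Category.comp_id i, ← Preadditive.comp_zsmul, hk, comp_zero]
  rw [h1, zero_comp]

end nilp

variable {P : T} [MonObj P] [IsCommMonObj P] {p : ℤ} {v : ℕ → (𝟙_ T ⟶ P)}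

theorem sm_v0 {N : T} (M : ModStr P N) (hv0 : v 0 = p • η[P]) (k : ℕ) :
    ((M.sm (v 0)) ^ k : End N) = p ^ k • 𝟙 N := by
  have h2 : M.sm (v 0) = p • (1 : End N) := by
    rw [hv0]
    have := map_zsmul M.smulHom p η[P]
    change M.smul (p • η[P]) = p • M.smul η[P] at this
    rw [M.smul_one] at this
    exact this
  rw [h2, smul_pow, one_pow]
  rfl

theorem pnil_iff {N : T} (M : ModStr P N) (hv0 : v 0 = p • η[P]) :
    PNil p N ↔ IsNilpotent (M.sm (v 0)) := by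
  constructor
  · rintro ⟨k, hk⟩
    exact ⟨k, by rw [sm_v0 M hv0, hk]⟩
  · rintro ⟨k, hk⟩
    exact ⟨k, by rw [← sm_v0 M hv0, hk]⟩

namespace KosFam

variable (D : KosFam P p v)

/-- if `Z ⊗ Q 0 = 0` and `p` is nilpotent on `Z` then `Z = 0` -/
theorem isZero_of_Q0 {Z : T} (h : IsZero (Z ⊗ D.Q 0)) (hp : PNil p Z) : IsZero Z := by
  have h1 : IsIso (Z ◁ (p • 𝟙 (𝟙_ T))) := isIso_of_isZero_cof (tens_dist Z D.dist0) h
  have h2 : Z ◁ (p • 𝟙 (𝟙_ T)) = p • 𝟙 (Z ⊗ 𝟙_ T) := by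
    have h3 : Z ◁ (p • 𝟙 (𝟙_ T)) = p • (Z ◁ (𝟙 (𝟙_ T))) :=
      map_zsmul ((tensorLeft Z).mapAddHom (X := 𝟙_ T) (Y := 𝟙_ T)) p (𝟙 _)
    rw [h3, MonoidalCategory.whiskerLeft_id]
  rw [h2] at h1
  obtain ⟨k, hk⟩ := hp.tensor_right (𝟙_ T)
  have h4 : IsZero (Z ⊗ 𝟙_ T) := by
    rw [IsZero.iff_id_eq_zero]
    have key : ∀ k : ℕ, p ^ k • 𝟙 (Z ⊗ 𝟙_ T) = 0 → 𝟙 (Z ⊗ 𝟙_ T) = 0 := by
      intro k
      induction k with
      | zero => intro h; rwa [pow_zero, one_smul] at h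
      | succ k ih =>
        intro h
        apply ih
        rw [← cancel_mono (p • 𝟙 (Z ⊗ 𝟙_ T)), zero_comp, Preadditive.comp_zsmul, Category.comp_id,
          ← mul_smul, ← pow_succ', h]
    exact key k hk
  exact h4.of_iso (ρ_ Z).symm

section

variable {N : T} (M : ModStr P N) {k : ℕ} (hv : InvData P p (k + 1) v)
  (F : LocFunctor (D.at_ (k + 1)).K)

include hv in
/-- `v_h` is invertible on `L N` -/
theorem isIso_vh : IsIso ((F.mod M).smul (v (k + 1))) := by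
  rw [F.mod_smul]
  apply F.isIso_map
  have h1 := (D.at_ (k + 1)).isIso_smul_K M hv (by omega)
  rw [ModStr.tensorRight_smul] at h1
  change IsIso ((D.at_ (k + 1)).K ◁ M.smul (v (k + 1)))
  have h2 : (D.at_ (k + 1)).K ◁ M.smul (v (k + 1)) =
      (β_ _ _).hom ≫ (M.smul (v (k + 1)) ▷ (D.at_ (k + 1)).K) ≫ (β_ _ _).hom := by
    rw [BraidedCategory.braiding_naturality_left, SymmetricCategory.symmetry_assoc]
  rw [h2]
  infer_instance

end

section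

variable {N : T} (M : ModStr P N) {k : ℕ} (hv : InvData P p (k + 1) v)
  (hn : IsNilpotent (M.sm (v 0)))

include hv hn in
/-- if `v_{k+1}` is invertible on `N` and `p` nilpotent then `N ⊗ G_1 ⊗ ⋯ ⊗ G_{k+1} = 0` -/
theorem isZero_gk' (hi : IsIso (M.smul (v (k + 1)))) : IsZero (N ⊗ D.gk (k + 1)) := by
  apply D.isZero_gk
  have hnil := fun j hj => D.nil_qk M hv hn k (by omega) j hj
  obtain ⟨⟨m, g, hg, hgc⟩, -⟩ := exists_dvd (M.tensorRight (D.qk k)) v (k + 1)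
    (hv.inv (k + 1) (by omega) le_rfl) (fun j hj => hnil j (by omega)) 1
  rw [pow_one] at hg
  have h1 : IsUnit (endR (N ⊗ D.qk k) P ((M.tensorRight (D.qk k)).sm (v (k + 1)))) := by
    rw [isUnit_iff_isIso]
    change IsIso ((M.tensorRight (D.qk k)).smul (v (k + 1)) ▷ P)
    rw [ModStr.tensorRight_smul]
    infer_instance
  have h2 : IsUnit (endL (N ⊗ D.qk k) P ((ModStr.self P).sm (v (k + 1)))) := by
    have h3 := h1.pow m
    rw [hg] at h3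
    exact (hgc.isUnit_mul_iff.1 h3).1
  have h4 : IsIso ((N ⊗ D.qk k) ◁ (ModStr.self P).smul (v (k + 1))) := by
    rw [isUnit_iff_isIso] at h2
    exact h2
  exact (isZero_cof_of_isIso (tens_dist (N ⊗ D.qk k) (D.dist k)) h4).of_iso (α_ _ _ _).symm

end

section

variable {N : T} (M : ModStr P N) {k : ℕ} (hv : InvData P p (k + 1) v)
  (hn : IsNilpotent (M.sm (v 0))) (F : LocFunctor (D.at_ (k + 1)).K)

include hn in
theorem nil_loc : IsNilpotent ((F.mod M).sm (v 0)) := by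
  rw [F.mod_sm]
  obtain ⟨m, hm⟩ := hn
  refine ⟨m, ?_⟩
  rw [← map_pow, hm]
  exact F.L.map_zero _ _

include hv hn in
/-- `N ⊗ G_1 ⊗ ⋯ ⊗ G_k ⊗ Tl_h ≅ (L N) ⊗ G_1 ⊗ ⋯ ⊗ G_k ⊗ Tl_h` -/
theorem isIso_u_gk : IsIso (F.u N ▷ (D.gk k ⊗ D.Tl (k + 1))) := by
  obtain ⟨Z, g, d, hd⟩ := distinguished_cocone_triangle (F.u N)
  have hac : Acyclic (D.at_ (k + 1)).K Z := (keq_iff_acyclic hd).1 (F.keq N)
  have hpN : PNil p N := (pnil_iff M hv.v0).2 hn
  have hpL : PNil p (F.L.obj N) := (pnil_iff (F.mod M) hv.v0).2 (D.nil_loc M hn F)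
  have hpZ : PNil p Z := PNil.cof hd hpN hpL
  have h1 := D.isZero_of_acyclic hac
  have h2 : IsZero (((Z ⊗ D.Q 0) ⊗ D.Tl (k + 1)) ⊗ D.qk k) := by
    refine h1.of_iso ?_
    exact swp _ _ _ ≪≫ whiskerRightIso (whiskerRightIso (β_ Z (D.Q 0)) _ ≪≫ swp _ _ _) _
  have h3 : IsZero ((Z ⊗ (D.gk k ⊗ D.Tl (k + 1))) ⊗ D.Q 0) := by
    refine (D.isZero_gk k _ h2).of_iso ?_
    exact swp _ _ _ ≪≫ whiskerLeftIso _ (β_ _ _) ≪≫ (α_ _ _ _).symm
  exact isIso_of_isZero_cof (tensR_dist _ hd) (D.isZero_of_Q0 h3 (hpZ.tensor_right _))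

end

/-- A `P`-module is a retract of `N ⊗ P`. -/
theorem retract_P {N : T} (M : ModStr P N) :
    ((ρ_ N).inv ≫ N ◁ η[P]) ≫ (β_ N P).hom ≫ M.act = 𝟙 N := by
  rw [Category.assoc, BraidedCategory.braiding_naturality_right_assoc, M.one_act]
  simp

/-- **Descent.** -/
theorem descend {N' : T} (M' : ModStr P N') (k : ℕ) (hz : IsZero (N' ⊗ D.gk (k + 1)))
    (C : T → Prop) (h0 : ∀ Z, IsZero Z → C Z)
    (hext : ∀ {X Y Z : T} {f : X ⟶ Y} {g : Y ⟶ Z} {w : Z ⟶ X⟦(1 : ℤ)⟧},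
      Triangle.mk f g w ∈ distTriang T → C X → C Z → C Y)
    (hret : ∀ {X Y : T} (i : X ⟶ Y) (r : Y ⟶ X), i ≫ r = 𝟙 X → C Y → C X)
    (hC : ∀ j ≤ k, C (N' ⊗ (D.gk j ⊗ D.Tl (j + 1)))) : C N' := by
  have hiso : ∀ {X Y : T} (_ : X ≅ Y), C X → C Y := fun e h => hret e.inv e.hom e.inv_hom_id h
  have key : ∀ j ≤ k + 1, C (N' ⊗ D.gk j) := by
    intro j hj
    induction hj using Nat.decreasingInduction with
    | self => exact h0 _ hz
    | of_succ j hj ih =>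
      have h1 := hext (dist_whiskerLeft (N' ⊗ D.gk j) (D.distG (j + 1)))
        (hiso (α_ _ _ _).symm ih) (hiso (α_ _ _ _).symm (hC j (by omega)))
      exact hret _ _ (retract_P (M'.tensorRight (D.gk j))) h1
  exact hiso (ρ_ N') (key 0 (Nat.zero_le _))

section

variable {N : T} (M : ModStr P N) {k : ℕ} (hv : InvData P p (k + 1) v)
  (hn : IsNilpotent (M.sm (v 0))) (F : LocFunctor (D.at_ (k + 1)).K)

theorem InvData.mono' {h : ℕ} (hv : InvData P p h v) {j : ℕ} (hj : j ≤ h) : InvData P p j v where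
  v0 := hv.v0
  inv i hi hi' := hv.inv i hi (hi'.trans hj)

include hv hn in
/-- `L N` is in the thick subcategory generated by the objects `X ⊗ Tl_i`, `1 ≤ i ≤ h`. -/
theorem thk_of_mod :
    Thk (fun Z => ∃ (X : T) (i : ℕ), 1 ≤ i ∧ i ≤ k + 1 ∧ Nonempty (Z ≅ X ⊗ D.Tl i))
      (F.L.obj N) := by
  refine D.descend (F.mod M) k (D.isZero_gk' (F.mod M) hv (D.nil_loc M hn F)
    (D.isIso_vh M hv F)) _ (fun _ h => Thk.zero h) (fun h h1 h3 => Thk.mid h h1 h3)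
    (fun i r h hY => Thk.retract i r h hY) (fun j hj => Thk.base ?_)
  exact ⟨F.L.obj N ⊗ D.gk j, j + 1, by omega, by omega, ⟨(α_ _ _ _).symm⟩⟩

include hv hn in
/-- **The `E`-localization of a `K_h`-localized `P`-module.** -/
theorem kc_of_mod {E : T} (FE : LocFunctor E)
    (hE1 : ∀ W, Acyclic E W → ∀ j, 1 ≤ j → j < k + 1 → Acyclic (D.at_ j).K W)
    (hE2 : ∀ W, PNil p W → (∀ j, 1 ≤ j → j < k + 1 → Acyclic (D.at_ j).K W) → Acyclic E W)
    (hct : CtH (N ⊗ (D.gk k ⊗ D.Tl (k + 1)))) : Kc FE (F.L.obj N) := by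
  have hn' := D.nil_loc M hn F
  refine D.descend (F.mod M) k (D.isZero_gk' (F.mod M) hv hn' (D.isIso_vh M hv F)) _
    (fun _ h => Kc.of_isLocal (isLocal_of_isZero h)) (fun h h1 h3 => Kc.ext h h1 h3)
    (fun i r h hY => Kc.retract i r h hY) (fun j hj => ?_)
  rcases Nat.lt_or_ge j k with hjk | hjk
  · -- local
    refine Kc.of_isLocal fun W hW f => ?_
    refine D.eq_zero_of_acyclic ((F.mod M).tensorRight (D.gk j ⊗ D.Tl (j + 1))) hv.v0
      (isNilpotent_tensorRight _ _ _ hn') j ?_ (fun i h1 h2 => hE1 W hW i h1 (by omega)) f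
    exact D.isIso_gk (F.mod M) hv hn' j (by omega)
  · -- acyclic with countable homotopy
    obtain rfl : j = k := le_antisymm hj hjk
    refine Kc.of_acyclic ?_ ?_
    · refine hE2 _ (((pnil_iff (F.mod M) hv.v0).2 hn').tensor_right _) fun i h1 h2 => ?_
      have h3 := D.acyclic_gk (InvData.mono' hv (j := i) (by omega)) h1 j (by omega)
        (F.L.obj N)
      exact (h3.tensor_right (D.Tl (j + 1))).of_iso (α_ _ _ _)
    · intro t
      have := D.isIso_u_gk M hv hn F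
      have h1 := hct t
      exact Function.Injective.countable (f := fun x : (𝟙_ T)⟦t⟧ ⟶ _ =>
        x ≫ inv (F.u N ▷ (D.gk j ⊗ D.Tl (j + 1))))
        (fun x y hxy => (cancel_mono _).1 hxy)

end

end KosFam

end Vale.Agent.P261.H621
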