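import Vale.Agent.P261.H621.Nil3
import Vale.Agent.P261.H621.ELoc2

/-!
# P261 (second hand-in): the map `L_{K(h)} (S/p) ⟶ L_E L_{K(h)} (S/p)`

`h = k + 1`, `E` with the Bousfield class of `K(0) ∨ ⋯ ∨ K(h-1)` (on `p`-nilpotent objects:
`K_1 ∨ ⋯ ∨ K_{h-1}` in terms of Koszul objects).

* `kc_LC`: the kernel and the cokernel of `π_t L (S/p) ⟶ π_t L_E L (S/p)` are countable;
* `thk_LC_Tl`: `L (S/p)` is in the thick subcategory generated by the objects `X ⊗ Tl_i`,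
  `1 ≤ i ≤ h`.
-/

open CategoryTheory MonoidalCategory Limits MonObj Pretriangulated

set_option linter.unusedSectionVars false

universe v u

namespace Vale.Agent.P261.H621

open Vale.Agent.P251 Vale.Agent.P251.T Vale.Agent.P251.S Vale.Agent.P251.M

variable {T : Type u} [Category.{v} T] [Preadditive T] [HasZeroObject T]
    [HasShift T ℤ] [∀ n : ℤ, (shiftFunctor T n).Additive] [Pretriangulated T] [IsTriangulated T]
    [MonoidalCategory T] [SymmetricCategory T] [TensorTriangulated T] [MonoidalClosed T]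
    [HasCoproducts.{0} T] [HasProducts.{0} T] [StableCat T]

theorem pnil_C {p : ℤ} {C : T} {i : 𝟙_ T ⟶ C} {δ : C ⟶ (𝟙_ T)⟦(1 : ℤ)⟧}
    (hC : Triangle.mk (p • 𝟙 (𝟙_ T)) i δ ∈ distTriang T) : PNil p C := by
  obtain ⟨a, ha⟩ := Triangle.yoneda_exact₃ _ hC (p • 𝟙 C) (by
    change i ≫ (p • 𝟙 C) = 0
    have h0 : (p • 𝟙 (𝟙_ T)) ≫ i = 0 := comp_distTriang_mor_zero₁₂ _ hC
    rw [Preadditive.comp_zsmul, Category.comp_id]
    rwa [Preadditive.zsmul_comp, Category.id_comp] at h0)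
  change (𝟙_ T)⟦(1 : ℤ)⟧ ⟶ C at a
  replace ha : p • 𝟙 C = δ ≫ a := ha
  refine ⟨2, ?_⟩
  have h1 : (p • 𝟙 C) ≫ δ = 0 := by
    have h0 : δ ≫ (p • 𝟙 (𝟙_ T))⟦(1 : ℤ)⟧' = 0 := comp_distTriang_mor_zero₃₁ _ hC
    rw [Functor.map_zsmul, CategoryTheory.Functor.map_id, Preadditive.comp_zsmul,
      Category.comp_id] at h0
    rw [Preadditive.zsmul_comp, Category.id_comp, h0]
  have h2 : (p • 𝟙 C) ≫ (p • 𝟙 C) = 0 :=
    (congrArg ((p • 𝟙 C) ≫ ·) ha).trans (by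
      rw [← Category.assoc, h1, zero_comp])
  rw [pow_two, mul_smul]
  rw [Preadditive.zsmul_comp, Category.id_comp] at h2
  exact h2

theorem PNil.tensor_left {p : ℤ} {X : T} (h : PNil p X) (Y : T) : PNil p (Y ⊗ X) :=
  (h.tensor_right Y).retract (β_ Y X).hom (β_ Y X).inv (by simp)

variable (D : I.MUData T) {p k : ℕ} [hp : Fact p.Prime]
  {C : T} {i : 𝟙_ T ⟶ C} {δ : C ⟶ (𝟙_ T)⟦(1 : ℤ)⟧}
  (Kf : KosFam D.P (p : ℤ) (D.vs p)) (F : LocFunctor (Kf.at_ (k + 1)).K)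

theorem nil_Ns (hC : Triangle.mk ((p : ℤ) • 𝟙 (𝟙_ T)) i δ ∈ distTriang T) (s : ℕ) :
    IsNilpotent ((GD.MP D C s).sm (D.vs p 0)) := by
  rw [← pnil_iff (GD.MP D C s) (D.invData p 0).v0]
  exact ((pnil_C hC).tensor_left _).tensor_right _

section

variable (hp2 : p ≠ 2) (hC : Triangle.mk ((p : ℤ) • 𝟙 (𝟙_ T)) i δ ∈ distTriang T)
  (hd : ¬ (p - 1) ∣ (k + 1)) (U : UnitCof D.R) (hB : BCells U)

include hp2 hC hd hB

theorem thk_LC_Tl :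
    Thk (fun Z => ∃ (X : T) (i : ℕ), 1 ≤ i ∧ i ≤ k + 1 ∧ Nonempty (Z ≅ X ⊗ Kf.Tl i))
      (F.L.obj (𝟙_ T ⊗ C)) := by
  refine (thk_LC D (Kf.at_ (k + 1)) F hp2 (by omega) hC hd U hB).mono ?_
  rintro _ ⟨s, rfl⟩
  exact Kf.thk_of_mod (GD.MP D C s) (D.invData p (k + 1)) (nil_Ns D hC s) F

/-- **The `E`-localization of `L_{K(h)} (S/p)`.** -/
theorem kc_LC {E : T} (FE : LocFunctor E)
    (hE1 : ∀ W, Acyclic E W → ∀ j, 1 ≤ j → j < k + 1 → Acyclic (Kf.at_ j).K W)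
    (hE2 : ∀ W, PNil (p : ℤ) W → (∀ j, 1 ≤ j → j < k + 1 → Acyclic (Kf.at_ j).K W) →
      Acyclic E W)
    (hct : ∀ s, CtH (GD.Ns D C s ⊗ (Kf.gk k ⊗ Kf.Tl (k + 1)))) :
    Kc FE (F.L.obj (𝟙_ T ⊗ C)) := by
  refine Kc.of_thk ?_ (thk_LC D (Kf.at_ (k + 1)) F hp2 (by omega) hC hd U hB)
  rintro _ ⟨s, rfl⟩
  exact Kf.kc_of_mod (GD.MP D C s) (D.invData p (k + 1)) (nil_Ns D hC s) F FE hE1 hE2 (hct s)

end

end Vale.Agent.P261.H621
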