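import Vale.Agent.P251.S.KosData
import Vale.Agent.P251.M.EvenCell
import Vale.Agent.P251.M.Tel

/-!
# P261 (second hand-in): definitions

* `Thk P`: the thick subcategory generated by the class `P`;
* `CHom`, `CIso`: homomorphisms (maps) with countable kernel and cokernel (on homotopy groups);
* `KosFam`: the cofibres of `p`, `v_1, v_2, …` and the telescopes of all `v_i`; `gk j` the tensor
  product of the fibres `G_i` of `P ⟶ Tl i`, `1 ≤ i ≤ j`;
* `JCells R`: the cofibre of the unit of `R` is a telescope of finite even complexes.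
-/

open CategoryTheory MonoidalCategory Limits MonObj Pretriangulated

set_option linter.unusedSectionVars false

universe v u

namespace Vale.Agent.P261.H621

open Vale.Agent.P251 Vale.Agent.P251.T Vale.Agent.P251.S

section Thk

variable {T : Type u} [Category.{v} T] [Preadditive T] [HasZeroObject T]
    [HasShift T ℤ] [∀ n : ℤ, (shiftFunctor T n).Additive] [Pretriangulated T]

/-- The thick subcategory generated by the class `P`. -/
inductive Thk (P : T → Prop) : T → Prop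
  | base {Z : T} (h : P Z) : Thk P Z
  | zero {Z : T} (h : IsZero Z) : Thk P Z
  | up {Z : T} (h : Thk P Z) : Thk P (Z⟦(1 : ℤ)⟧)
  | down {Z : T} (h : Thk P Z) : Thk P (Z⟦(-1 : ℤ)⟧)
  | ext (Δ : Triangle T) (hΔ : Δ ∈ distTriang T) (h₁ : Thk P Δ.obj₁) (h₃ : Thk P Δ.obj₃) :
      Thk P Δ.obj₂
  | retract {Z Z' : T} (i : Z ⟶ Z') (r : Z' ⟶ Z) (h : i ≫ r = 𝟙 Z) (hZ : Thk P Z') : Thk P Z

namespace Thk

variable {P : T → Prop}

theorem of_iso {Z Z' : T} (e : Z ≅ Z') (h : Thk P Z) : Thk P Z' :=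
  retract e.inv e.hom e.inv_hom_id h

/-- the third term of a triangle -/
theorem cof {X Y Z : T} {f : X ⟶ Y} {g : Y ⟶ Z} {w : Z ⟶ X⟦(1 : ℤ)⟧}
    (hΔ : Triangle.mk f g w ∈ distTriang T) (hX : Thk P X) (hY : Thk P Y) : Thk P Z :=
  ext _ (rot_of_distTriang _ hΔ) hY hX.up

/-- the first term of a triangle -/
theorem fib {X Y Z : T} {f : X ⟶ Y} {g : Y ⟶ Z} {w : Z ⟶ X⟦(1 : ℤ)⟧}
    (hΔ : Triangle.mk f g w ∈ distTriang T) (hY : Thk P Y) (hZ : Thk P Z) : Thk P X :=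
  ext _ (inv_rot_of_distTriang _ hΔ) hZ.down hY

theorem mid {X Y Z : T} {f : X ⟶ Y} {g : Y ⟶ Z} {w : Z ⟶ X⟦(1 : ℤ)⟧}
    (hΔ : Triangle.mk f g w ∈ distTriang T) (hX : Thk P X) (hZ : Thk P Z) : Thk P Y :=
  ext _ hΔ hX hZ

theorem mono {P' : T → Prop} (hP : ∀ Z, P Z → Thk P' Z) {Z : T} (h : Thk P Z) : Thk P' Z := by
  induction h with
  | base h => exact hP _ h
  | zero h => exact zero h
  | up _ ih => exact ih.up
  | down _ ih => exact ih.down
  | ext Δ hΔ _ _ ih₁ ih₃ => exact ext Δ hΔ ih₁ ih₃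
  | retract i r h _ ih => exact retract i r h ih

end Thk

end Thk

section Countable

/-- A homomorphism with countable kernel and countable cokernel. -/
def CHom {A B : Type*} [AddCommGroup A] [AddCommGroup B] (f : A →+ B) : Prop :=
  Countable f.ker ∧ Countable (B ⧸ f.range)

variable {T : Type u} [Category.{v} T] [Preadditive T] [HasZeroObject T]
    [HasShift T ℤ] [∀ n : ℤ, (shiftFunctor T n).Additive] [Pretriangulated T]
    [MonoidalCategory T]

/-- A map with countable kernel and cokernel on all homotopy groups. -/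
def CIso {X Y : T} (f : X ⟶ Y) : Prop :=
  ∀ t : ℤ, CHom (Preadditive.rightComp ((𝟙_ T)⟦t⟧) f)

/-- An object with countable homotopy groups. -/
def CtH (X : T) : Prop := ∀ t : ℤ, Countable ((𝟙_ T)⟦t⟧ ⟶ X)

end Countable

section Fam

variable {T : Type u} [Category.{v} T] [Preadditive T] [HasZeroObject T] [HasShift T ℤ]
  [∀ n : ℤ, (shiftFunctor T n).Additive] [Pretriangulated T] [HasCoproducts.{0} T]
  [MonoidalCategory T]

/-- The cofibres `Q 0` of `p` on the unit, `Q (i+1)` of `v (i+1)` on `P`, the telescopes `Tl i` of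
`v i` on `P`, and the fibres `G i` of `P ⟶ Tl i`, for all `i`. -/
structure KosFam (P : T) [MonObj P] (p : ℤ) (v : ℕ → (𝟙_ T ⟶ P)) where
  /-- the cofibres -/
  Q : ℕ → T
  /-- the map to the cofibre of `p` -/
  q0 : 𝟙_ T ⟶ Q 0
  /-- the connecting map -/
  δ0 : Q 0 ⟶ (𝟙_ T)⟦(1 : ℤ)⟧
  dist0 : Triangle.mk (p • 𝟙 (𝟙_ T)) q0 δ0 ∈ distTriang T
  /-- the maps to the cofibres -/
  q (i : ℕ) : P ⟶ Q (i + 1)
  /-- the connecting maps -/
  δ (i : ℕ) : Q (i + 1) ⟶ P⟦(1 : ℤ)⟧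
  dist (i : ℕ) : Triangle.mk ((ModStr.self P).smul (v (i + 1))) (q i) (δ i) ∈ distTriang T
  /-- the telescopes -/
  Tl : ℕ → T
  /-- the maps to the telescopes -/
  ι (i : ℕ) : ℕ → (P ⟶ Tl i)
  isTel (i : ℕ) : S.IsTel (X := fun _ => P) (fun _ => (ModStr.self P).smul (v i)) (ι i)
  /-- the fibres of `P ⟶ Tl i` -/
  G : ℕ → T
  /-- the maps from the fibres -/
  g (i : ℕ) : G i ⟶ P
  /-- the connecting maps -/
  c (i : ℕ) : Tl i ⟶ (G i)⟦(1 : ℤ)⟧
  distG (i : ℕ) : Triangle.mk (g i) (ι i 0) (c i) ∈ distTriang T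

theorem exists_kosFam (P : T) [MonObj P] (p : ℤ) (v : ℕ → (𝟙_ T ⟶ P)) :
    Nonempty (KosFam P p v) := by
  have hU : ∀ i, ∃ (Tl : T) (ι : ℕ → (P ⟶ Tl)),
      S.IsTel (X := fun _ => P) (fun _ => (ModStr.self P).smul (v i)) ι := by
    intro i
    obtain ⟨U⟩ := exists_tel (X := fun _ : ℕ => P) (fun _ => (ModStr.self P).smul (v i))
    exact ⟨U.obj, U.ι, U.isTel⟩
  choose Tl ι isTel using hU
  have hG : ∀ i, ∃ (G : T) (g : G ⟶ P) (c : Tl i ⟶ G⟦(1 : ℤ)⟧),
      Triangle.mk g (ι i 0) c ∈ distTriang T := fun i =>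
    distinguished_cocone_triangle₁ (ι i 0)
  choose G g c hG using hG
  obtain ⟨Q0, q0, δ0, h0⟩ := distinguished_cocone_triangle (p • 𝟙 (𝟙_ T))
  have hQ : ∀ i, ∃ (C : T) (q : P ⟶ C) (δ : C ⟶ P⟦(1 : ℤ)⟧),
      Triangle.mk ((ModStr.self P).smul (v (i + 1))) q δ ∈ distTriang T := fun i =>
    distinguished_cocone_triangle ((ModStr.self P).smul (v (i + 1)))
  choose C q δ hd using hQ
  exact ⟨{
    Q := fun i => match i with
      | 0 => Q0
      | i + 1 => C i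
    q0 := q0
    δ0 := δ0
    dist0 := h0
    q := q
    δ := δ
    dist := hd
    Tl := Tl
    ι := ι
    isTel := isTel
    G := G
    g := g
    c := c
    distG := hG }⟩

namespace KosFam

variable {P : T} [MonObj P] {p : ℤ} {v : ℕ → (𝟙_ T ⟶ P)} (D : KosFam P p v)

/-- the data of the Koszul object of height `h` -/
def at_ (h : ℕ) : KosData P p h v where
  Q := D.Q
  q0 := D.q0
  δ0 := D.δ0
  dist0 := D.dist0
  q := D.q
  δ := D.δ
  dist := D.dist
  Tl := D.Tl h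
  ι := D.ι h
  isTel := D.isTel h

/-- `G 1 ⊗ ⋯ ⊗ G j` -/
def gk : ℕ → T
  | 0 => 𝟙_ T
  | j + 1 => gk j ⊗ D.G (j + 1)

/-- `Q 1 ⊗ ⋯ ⊗ Q j` -/
def qk : ℕ → T
  | 0 => 𝟙_ T
  | j + 1 => qk j ⊗ D.Q (j + 1)

@[simp] theorem gk_zero : D.gk 0 = 𝟙_ T := rfl

@[simp] theorem gk_succ (j : ℕ) : D.gk (j + 1) = D.gk j ⊗ D.G (j + 1) := rfl

@[simp] theorem qk_zero : D.qk 0 = 𝟙_ T := rfl

@[simp] theorem qk_succ (j : ℕ) : D.qk (j + 1) = D.qk j ⊗ D.Q (j + 1) := rfl

end KosFam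

end Fam

section Cells

variable {T : Type u} [Category.{v} T] [Preadditive T] [HasZeroObject T] [HasShift T ℤ]
  [∀ n : ℤ, (shiftFunctor T n).Additive] [Pretriangulated T] [HasCoproducts.{0} T]
  [MonoidalCategory T]

/-- The cofibre of the unit of `R` is a telescope of finite even complexes. -/
def JCells (R : T) [MonObj R] : Prop :=
  ∀ (J : T) (ρ : R ⟶ J) (δ : J ⟶ (𝟙_ T)⟦(1 : ℤ)⟧),
    Triangle.mk (η[R] : 𝟙_ T ⟶ R) ρ δ ∈ distTriang T →
      ∃ (F : ℕ ⥤ T) (κ : ∀ j, F.obj j ⟶ J), M.IsTel F J κ ∧ ∀ j, M.EvenCell T 0 (F.obj j)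

end Cells

end Vale.Agent.P261.H621
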