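import Vale.Agent.P261.H621.Defs
import Vale.Agent.P251.S.LocMod
import Vale.Agent.P251.S.Ghost
import Mathlib.GroupTheory.Coset.Basic

/-!
# P261 (second hand-in): maps with countable kernel and cokernel

* `chom_ker`, `chom_coker`: the four lemmas modulo countable groups;
* `Kc FE Y`: the map `Y ⟶ L_E Y` has countable kernel and cokernel on all homotopy groups; closed
  under shifts, extensions and retracts; true for local objects and for acyclic objects with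
  countable homotopy groups;
* `Kc.countable_iff`: then `π_t Y` is countable iff `π_t L_E Y` is.
-/

open CategoryTheory MonoidalCategory Limits MonObj Pretriangulated

set_option linter.unusedSectionVars false

universe v u

namespace Vale.Agent.P261.H621

open Vale.Agent.P251 Vale.Agent.P251.T Vale.Agent.P251.S

section algebra

variable {A B C D E A' B' C' D' E' : Type*} [AddCommGroup A] [AddCommGroup B] [AddCommGroup C]
  [AddCommGroup D] [AddCommGroup E] [AddCommGroup A'] [AddCommGroup B'] [AddCommGroup C']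
  [AddCommGroup D'] [AddCommGroup E']

theorem countable_of_ker_range (f : A →+ B) (hk : Countable f.ker) (hr : Countable f.range) :
    Countable A := by
  have e1 : (A ⧸ f.ker) ≃+ f.range := QuotientAddGroup.quotientKerEquivRange f
  have : Countable (A ⧸ f.ker) := e1.toEquiv.countable_iff.2 hr
  exact (AddSubgroup.addGroupEquivQuotientProdAddSubgroup (s := f.ker)).countable_iff.2
    inferInstance

/-- The four lemma modulo countable groups, kernels. -/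
theorem chom_ker {α : A →+ B} {β : B →+ C} {γ : C →+ D} {α' : A' →+ B'} {β' : B' →+ C'}
    {γ' : C' →+ D'} {a : A →+ A'} {b : B →+ B'} {c : C →+ C'} {d : D →+ D'}
    (hab : ∀ x, b (α x) = α' (a x)) (hbc : ∀ x, c (β x) = β' (b x))
    (hcd : ∀ x, d (γ x) = γ' (c x)) (h1 : ∀ x, β (α x) = 0)
    (h2 : ∀ x, γ x = 0 → ∃ y, β y = x) (h3 : ∀ x, β' x = 0 → ∃ y, α' y = x)
    (ha : Countable (A' ⧸ a.range)) (hb : Countable b.ker) (hd : Countable d.ker) :
    Countable c.ker := by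
  classical
  -- the map `ker c ⟶ ker d`
  let g : c.ker →+ D := γ.comp c.ker.subtype
  refine countable_of_ker_range g ?_ ?_
  · -- the kernel
    let Y : (A' ⧸ a.range) → B := fun q =>
      if h : ∃ y : B, ∃ z : A', (z : A' ⧸ a.range) = q ∧ b y = α' z then h.choose else 0
    let Φ : (A' ⧸ a.range) × b.ker → C := fun x => β (Y x.1 + x.2)
    have hΦ : (Set.range Φ).Countable := Set.countable_range Φ
    have hsub : ∀ x : g.ker, (x : c.ker).1 ∈ Set.range Φ := by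
      rintro ⟨⟨x, hx⟩, hx'⟩
      have hγ : γ x = 0 := hx'
      have hc : c x = 0 := hx
      obtain ⟨y, rfl⟩ := h2 x hγ
      obtain ⟨z, hz⟩ := h3 (b y) (by rw [← hbc, hc])
      have hex : ∃ y' : B, ∃ z' : A', (z' : A' ⧸ a.range) = (z : A' ⧸ a.range) ∧ b y' = α' z' :=
        ⟨y, z, rfl, hz.symm⟩
      have hY : Y (z : A' ⧸ a.range) = hex.choose := dif_pos hex
      obtain ⟨z', hz', hb'⟩ := hex.choose_spec
      obtain ⟨w, hw⟩ := (QuotientAddGroup.eq.1 hz')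
      have hk : b (y - Y (z : A' ⧸ a.range) - α w) = 0 := by
        rw [map_sub, map_sub, hY, hb', ← hz, hab, hw, map_add, map_neg]
        abel
      refine ⟨((z : A' ⧸ a.range), ⟨_, hk⟩), ?_⟩
      change β (Y (z : A' ⧸ a.range) + (y - Y (z : A' ⧸ a.range) - α w)) = β y
      rw [map_add, map_sub, map_sub, h1, sub_zero]
      abel
    have hc : Countable (Set.range Φ) := hΦ
    refine Function.Injective.countable (f := fun x : g.ker => (⟨_, hsub x⟩ : Set.range Φ))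
      (fun x y h => ?_)
    have h' : x.1.1 = y.1.1 := congrArg (fun z : Set.range Φ => z.1) h
    exact Subtype.ext (Subtype.ext h')
  · refine Function.Injective.countable (α := g.range) (β := d.ker)
      (f := fun x => ⟨x.1, ?_⟩) ?_
    · obtain ⟨y, hy⟩ := x.2
      change d x.1 = 0
      rw [← hy]
      change d (γ y.1) = 0
      rw [hcd, show c y.1 = 0 from y.2, map_zero]
    · intro x y h
      have h' : x.1 = y.1 := congrArg (fun z : d.ker => z.1) h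
      exact Subtype.ext h'

/-- The four lemma modulo countable groups, cokernels. -/
theorem chom_coker {β : B →+ C} {γ : C →+ D} {δ : D →+ E} {β' : B' →+ C'}
    {γ' : C' →+ D'} {δ' : D' →+ E'} {b : B →+ B'} {c : C →+ C'} {d : D →+ D'} {e : E →+ E'}
    (hbc : ∀ x, c (β x) = β' (b x))
    (hcd : ∀ x, d (γ x) = γ' (c x)) (hde : ∀ x, e (δ x) = δ' (d x))
    (h1 : ∀ x, δ' (γ' x) = 0)
    (h2 : ∀ x, δ x = 0 → ∃ y, γ y = x) (h3 : ∀ x, γ' x = 0 → ∃ y, β' y = x)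
    (hb : Countable (B' ⧸ b.range)) (hd : Countable (D' ⧸ d.range)) (he : Countable e.ker) :
    Countable (C' ⧸ c.range) := by
  classical
  let X : (D' ⧸ d.range) → C' := fun q =>
    if h : ∃ x : C', (γ' x : D' ⧸ d.range) = q then h.choose else 0
  let XX : (D' ⧸ d.range) × e.ker → C' × D := fun q =>
    if h : ∃ x : C' × D, γ' (x.1 - X q.1) = d x.2 ∧ δ x.2 = q.2 then h.choose else 0
  let Φ : ((D' ⧸ d.range) × e.ker) × (B' ⧸ b.range) → C' ⧸ c.range := fun q =>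
    ((XX q.1).1 + β' q.2.out : C')
  refine Function.Surjective.countable (f := Φ) ?_
  intro x
  obtain ⟨x, rfl⟩ := QuotientAddGroup.mk_surjective x
  have hex : ∃ x' : C', (γ' x' : D' ⧸ d.range) = (γ' x : D' ⧸ d.range) := ⟨x, rfl⟩
  have hX : X (γ' x : D' ⧸ d.range) = hex.choose := dif_pos hex
  have hX' := hex.choose_spec
  rw [← hX] at hX'
  obtain ⟨z, hz⟩ := QuotientAddGroup.eq.1 hX'
  have hz' : γ' (x - X (γ' x : D' ⧸ d.range)) = d z := by
    rw [hz, map_sub]; abel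
  have hκ : e (δ z) = 0 := by
    rw [hde, ← hz', h1]
  let κ : e.ker := ⟨δ z, hκ⟩
  have hex2 : ∃ x' : C' × D, γ' (x'.1 - X (γ' x : D' ⧸ d.range)) = d x'.2 ∧ δ x'.2 = κ :=
    ⟨(x, z), hz', rfl⟩
  have hXX : XX ((γ' x : D' ⧸ d.range), κ) = hex2.choose := dif_pos hex2
  have hXX' := hex2.choose_spec
  rw [← hXX] at hXX'
  set x2 := (XX ((γ' x : D' ⧸ d.range), κ)).1 with hx2
  set z2 := (XX ((γ' x : D' ⧸ d.range), κ)).2 with hz2
  obtain ⟨w, hw⟩ := h2 (z - z2) (by rw [map_sub, hXX'.2]; exact sub_self _)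
  have h4 : γ' (x - x2 - c w) = 0 := by
    rw [map_sub, ← hcd, hw, map_sub d, ← hXX'.1, ← hz', ← map_sub, ← map_sub]
    rw [show x - x2 - (x - X (γ' x : D' ⧸ d.range) - (x2 - X (γ' x : D' ⧸ d.range))) = 0 by abel,
      map_zero]
  obtain ⟨y, hy⟩ := h3 _ h4
  refine ⟨(((γ' x : D' ⧸ d.range), κ), (y : B' ⧸ b.range)), ?_⟩
  have h5 : ((Quotient.out (y : B' ⧸ b.range) : B') : B' ⧸ b.range) = y :=
    QuotientAddGroup.out_eq' _
  obtain ⟨u, hu⟩ := QuotientAddGroup.eq.1 h5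
  change ((x2 + β' (Quotient.out (y : B' ⧸ b.range)) : C') : C' ⧸ c.range) = (x : C' ⧸ c.range)
  refine QuotientAddGroup.eq.2 ⟨w + β u, ?_⟩
  rw [map_add, hbc, hu, map_add, map_neg, hy]
  abel

theorem CHom.of_bijective {f : A →+ B} (h : Function.Bijective f) : CHom f := by
  constructor
  · rw [(AddMonoidHom.ker_eq_bot_iff f).2 h.1]
    infer_instance
  · rw [AddMonoidHom.range_eq_top.2 h.2]
    have : Subsingleton (B ⧸ (⊤ : AddSubgroup B)) := QuotientAddGroup.subsingleton_quotient_top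
    infer_instance

/-- retracts -/
theorem CHom.retract {f : A →+ B} {f' : A' →+ B'} {i : A →+ A'} {r : A' →+ A} {j : B →+ B'}
    {q : B' →+ B} (hir : ∀ x, r (i x) = x) (hjq : ∀ x, q (j x) = x) (h1 : ∀ x, f' (i x) = j (f x))
    (h2 : ∀ x, f (r x) = q (f' x)) (h : CHom f') : CHom f := by
  obtain ⟨hk, hc⟩ := h
  constructor
  · refine Function.Injective.countable (β := f'.ker) (f := fun x => ⟨i x.1, ?_⟩) ?_
    · change f' (i x.1) = 0
      rw [h1, show f x.1 = 0 from x.2, map_zero]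
    · intro x y h
      have h3 : i x.1 = i y.1 := congrArg Subtype.val h
      apply Subtype.ext
      rw [← hir x.1, h3, hir]
  · refine Function.Surjective.countable (α := B' ⧸ f'.range)
      (f := QuotientAddGroup.map _ _ q ?_) ?_
    · rintro _ ⟨x, rfl⟩
      exact ⟨r x, h2 x⟩
    · intro y
      obtain ⟨y, rfl⟩ := QuotientAddGroup.mk_surjective y
      exact ⟨(j y : B'), by
        change ((q (j y) : B) : B ⧸ f.range) = _
        rw [hjq]⟩

theorem CHom.of_equiv {f : A →+ B} {f' : A' →+ B'} (i : A ≃+ A') (j : B ≃+ B')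
    (h : ∀ x, f' (i x) = j (f x)) (hf : CHom f') : CHom f :=
  CHom.retract (i := i.toAddMonoidHom) (r := i.symm.toAddMonoidHom) (j := j.toAddMonoidHom)
    (q := j.symm.toAddMonoidHom) (fun x => i.symm_apply_apply x) (fun x => j.symm_apply_apply x)
    h (fun x => by
      change f (i.symm x) = j.symm (f' x)
      rw [AddEquiv.eq_symm_apply, ← h, AddEquiv.apply_symm_apply]) hf

theorem CHom.countable_iff {f : A →+ B} (h : CHom f) : Countable A ↔ Countable B := by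
  constructor
  · intro _
    have h1 : Countable f.range := Function.Surjective.countable f.rangeRestrict_surjective
    have h2 := h.2
    exact (AddSubgroup.addGroupEquivQuotientProdAddSubgroup (s := f.range)).countable_iff.2
      inferInstance
  · intro _
    exact countable_of_ker_range f h.1 inferInstance

end algebra

section top

variable {T : Type u} [Category.{v} T] [Preadditive T] [HasZeroObject T]
    [HasShift T ℤ] [∀ n : ℤ, (shiftFunctor T n).Additive] [Pretriangulated T]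
    [MonoidalCategory T] [SymmetricCategory T] [TensorTriangulated T]

/-- `Hom(A, X) ≃ Hom(A', X)` for `A ≅ A'` -/
def homEquivOfIso {A A' : T} (e : A ≅ A') (X : T) : (A ⟶ X) ≃+ (A' ⟶ X) where
  toFun x := e.inv ≫ x
  invFun x := e.hom ≫ x
  left_inv x := by simp
  right_inv x := by simp
  map_add' x y := Preadditive.comp_add _ _ _ _ _ _

/-- `Hom(A, X) ≃ Hom(A⟦n⟧, X⟦n⟧)` -/
noncomputable def homShiftEquiv (A X : T) (n : ℤ) : (A ⟶ X) ≃+ (A⟦n⟧ ⟶ X⟦n⟧) where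
  toFun x := x⟦n⟧'
  invFun x := (shiftFunctor T n).preimage x
  left_inv x := (shiftFunctor T n).preimage_map x
  right_inv x := (shiftFunctor T n).map_preimage x
  map_add' x y := Functor.map_add _

theorem CIso.sphere {X Y : T} {f : X ⟶ Y} (h : CIso f) {A : T} (hA : IsSphere A) :
    CHom (Preadditive.rightComp A f) := by
  obtain ⟨t, ⟨e⟩⟩ := hA
  exact CHom.of_equiv (homEquivOfIso e X) (homEquivOfIso e Y)
    (fun x => Category.assoc _ _ _) (h t)

theorem CIso.of_sphere {X Y : T} {f : X ⟶ Y}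
    (h : ∀ A : T, IsSphere A → CHom (Preadditive.rightComp A f)) : CIso f :=
  fun t => h _ (isSphere_one_shift t)

theorem CIso.shift {X Y : T} {f : X ⟶ Y} (h : CIso f) (n : ℤ) : CIso (f⟦n⟧') := by
  refine CIso.of_sphere fun A hA => ?_
  let e : A ≅ (A⟦-n⟧)⟦n⟧ := ((shiftFunctorCompIsoId T (-n) n (by omega)).app A).symm
  refine CHom.of_equiv ((homEquivOfIso e _).trans (homShiftEquiv (A⟦-n⟧) X n).symm)
    ((homEquivOfIso e _).trans (homShiftEquiv (A⟦-n⟧) Y n).symm) (fun x => ?_)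
    (h.sphere (hA.shift (-n)))
  apply (homShiftEquiv (A⟦-n⟧) Y n).injective
  simp only [AddEquiv.trans_apply, AddEquiv.apply_symm_apply]
  change ((shiftFunctor T n).preimage (e.inv ≫ x) ≫ f)⟦n⟧' = e.inv ≫ x ≫ f⟦n⟧'
  rw [Functor.map_comp, Functor.map_preimage, Category.assoc]

theorem CIso.of_square {X Y X' Y' : T} {f : X ⟶ Y} {f' : X' ⟶ Y'} (i : X ≅ X') (j : Y ≅ Y')
    (h : f ≫ j.hom = i.hom ≫ f') (hf : CIso f') : CIso f := by
  refine CIso.of_sphere fun A hA => ?_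
  refine CHom.retract (i := Preadditive.rightComp A i.hom) (r := Preadditive.rightComp A i.inv)
    (j := Preadditive.rightComp A j.hom) (q := Preadditive.rightComp A j.inv) ?_ ?_ ?_ ?_
    (hf.sphere hA)
  · intro x; change (x ≫ i.hom) ≫ i.inv = x; simp
  · intro x; change (x ≫ j.hom) ≫ j.inv = x; simp
  · intro x; change (x ≫ i.hom) ≫ f' = (x ≫ f) ≫ j.hom; rw [Category.assoc, Category.assoc, h]
  · intro x
    change (x ≫ i.inv) ≫ f = (x ≫ f') ≫ j.inv
    rw [← cancel_mono j.hom, Category.assoc, Category.assoc, h]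
    simp

theorem CIso.of_isIso {X Y : T} (f : X ⟶ Y) [IsIso f] : CIso f := by
  refine CIso.of_sphere fun A _ => CHom.of_bijective ⟨?_, ?_⟩
  · intro x y hxy
    have h : x ≫ f = y ≫ f := hxy
    exact (cancel_mono f).1 h
  · intro y
    exact ⟨y ≫ inv f, by change (y ≫ inv f) ≫ f = y; simp⟩

variable {E : T} (FE : LocFunctor E)

/-- The localization map of `Y` has countable kernel and cokernel on homotopy groups. -/
def Kc (Y : T) : Prop := CIso (FE.u Y)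

variable {FE}

theorem Kc.shift {Y : T} (h : Kc FE Y) (n : ℤ) : Kc FE (Y⟦n⟧) := by
  have h1 := CIso.shift h n
  rw [FE.u_shift] at h1
  exact CIso.of_square (Iso.refl _) ((FE.L.commShiftIso n).app Y)
    (by simp) h1

theorem Kc.retract {Y Y' : T} (i : Y ⟶ Y') (r : Y' ⟶ Y) (h : i ≫ r = 𝟙 Y) (hY : Kc FE Y') :
    Kc FE Y := by
  refine CIso.of_sphere fun A hA => ?_
  refine CHom.retract (i := Preadditive.rightComp A i) (r := Preadditive.rightComp A r)
    (j := Preadditive.rightComp A (FE.L.map i)) (q := Preadditive.rightComp A (FE.L.map r))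
    ?_ ?_ ?_ ?_ (CIso.sphere hY hA)
  · intro x; change (x ≫ i) ≫ r = x; rw [Category.assoc, h, Category.comp_id]
  · intro x
    change (x ≫ FE.L.map i) ≫ FE.L.map r = x
    rw [Category.assoc, ← FE.L.map_comp, h, CategoryTheory.Functor.map_id, Category.comp_id]
  · intro x; change (x ≫ i) ≫ FE.u Y' = (x ≫ FE.u Y) ≫ FE.L.map i
    rw [Category.assoc, Category.assoc, FE.u_naturality]
  · intro x; change (x ≫ r) ≫ FE.u Y = (x ≫ FE.u Y') ≫ FE.L.map r
    rw [Category.assoc, Category.assoc, FE.u_naturality]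

theorem Kc.of_iso {Y Y' : T} (e : Y ≅ Y') (hY : Kc FE Y) : Kc FE Y' :=
  hY.retract e.inv e.hom e.inv_hom_id

theorem Kc.of_isLocal {Y : T} (h : IsLocal E Y) : Kc FE Y := by
  have := FE.isIso_u h
  exact CIso.of_isIso _

theorem Kc.of_acyclic {Y : T} (h : Acyclic E Y) (hc : CtH Y) : Kc FE Y := by
  intro t
  have hz := FE.isZero_obj h
  have hs : Subsingleton ((𝟙_ T)⟦t⟧ ⟶ FE.L.obj Y) := ⟨fun a b => hz.eq_of_tgt a b⟩
  have := hc t
  exact ⟨inferInstance, inferInstance⟩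

theorem Kc.countable_iff {Y : T} (h : Kc FE Y) (t : ℤ) :
    Countable ((𝟙_ T)⟦t⟧ ⟶ Y) ↔ Countable ((𝟙_ T)⟦t⟧ ⟶ FE.L.obj Y) :=
  (h t).countable_iff

theorem CIso.of_shift {X Y : T} {f : X ⟶ Y} (n : ℤ) (h : CIso (f⟦n⟧')) : CIso f := by
  have h1 := h.shift (-n)
  refine CIso.of_square ((shiftFunctorCompIsoId T n (-n) (by omega)).symm.app X)
    ((shiftFunctorCompIsoId T n (-n) (by omega)).symm.app Y) ?_ h1
  exact (shiftFunctorCompIsoId T n (-n) (by omega)).inv.naturality f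

/-- `Kc` is closed under extensions -/
theorem Kc.ext {X Y Z : T} {f : X ⟶ Y} {g : Y ⟶ Z} {w : Z ⟶ X⟦(1 : ℤ)⟧}
    (hΔ : Triangle.mk f g w ∈ distTriang T) (hX : Kc FE X) (hZ : Kc FE Z) :
    Kc FE Y := by
  have hΔ' := FE.map_dist hΔ
  set w' : FE.L.obj Z ⟶ (FE.L.obj X)⟦(1 : ℤ)⟧ := FE.L.map w ≫
    (FE.L.commShiftIso (1 : ℤ)).hom.app X with hw'
  have hdist' : Triangle.mk (FE.L.map f) (FE.L.map g) w' ∈ distTriang T := hΔ'
  have hw : w ≫ (FE.u X)⟦(1 : ℤ)⟧' = FE.u Z ≫ w' := by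
    rw [hw', FE.u_shift, FE.u_naturality_assoc]
  have hf : f⟦(1 : ℤ)⟧' ≫ (FE.u Y)⟦(1 : ℤ)⟧' = (FE.u X)⟦(1 : ℤ)⟧' ≫ (FE.L.map f)⟦(1 : ℤ)⟧' := by
    rw [← Functor.map_comp, ← Functor.map_comp, FE.u_naturality]
  have hg : g⟦(1 : ℤ)⟧' ≫ (FE.u Z)⟦(1 : ℤ)⟧' = (FE.u Y)⟦(1 : ℤ)⟧' ≫ (FE.L.map g)⟦(1 : ℤ)⟧' := by
    rw [← Functor.map_comp, ← Functor.map_comp, FE.u_naturality]
  have hw2 : w⟦(1 : ℤ)⟧' ≫ ((FE.u X)⟦(1 : ℤ)⟧')⟦(1 : ℤ)⟧' =
      (FE.u Z)⟦(1 : ℤ)⟧' ≫ w'⟦(1 : ℤ)⟧' := by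
    rw [← Functor.map_comp, ← Functor.map_comp, hw]
  -- exactness
  have ex : ∀ {X Y Z : T} {f : X ⟶ Y} {g : Y ⟶ Z} {w : Z ⟶ X⟦(1 : ℤ)⟧}
      (_ : Triangle.mk f g w ∈ distTriang T) {A : T},
      (∀ x : A ⟶ X⟦(1 : ℤ)⟧, x ≫ f⟦(1 : ℤ)⟧' = 0 → ∃ y : A ⟶ Z, y ≫ w = x) ∧
      (∀ x : A ⟶ Y⟦(1 : ℤ)⟧, x ≫ g⟦(1 : ℤ)⟧' = 0 → ∃ y : A ⟶ X⟦(1 : ℤ)⟧, y ≫ f⟦(1 : ℤ)⟧' = x) ∧
      (∀ x : A ⟶ Z⟦(1 : ℤ)⟧, x ≫ w⟦(1 : ℤ)⟧' = 0 → ∃ y : A ⟶ Y⟦(1 : ℤ)⟧, y ≫ g⟦(1 : ℤ)⟧' = x) := by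
    intro X Y Z f g w h A
    refine ⟨fun x hx => ?_, fun x hx => ?_, fun x hx => ?_⟩
    · obtain ⟨y, hy⟩ := ex₁ h x hx
      exact ⟨y, hy.symm⟩
    · have h3 := rot_of_distTriang _ (rot_of_distTriang _ (rot_of_distTriang _ h))
      obtain ⟨y, hy⟩ := Triangle.coyoneda_exact₂ _ h3 x (by
        change x ≫ (-g⟦(1 : ℤ)⟧') = 0
        rw [Preadditive.comp_neg, hx, neg_zero])
      change A ⟶ X⟦(1 : ℤ)⟧ at y
      replace hy : x = y ≫ (-f⟦(1 : ℤ)⟧') := hy
      exact ⟨-y, by rw [hy, Preadditive.neg_comp, Preadditive.comp_neg]⟩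
    · have h3 := rot_of_distTriang _ (rot_of_distTriang _ (rot_of_distTriang _ h))
      obtain ⟨y, hy⟩ := Triangle.coyoneda_exact₃ _ h3 x (by
        change x ≫ (-w⟦(1 : ℤ)⟧') = 0
        rw [Preadditive.comp_neg, hx, neg_zero])
      change A ⟶ Y⟦(1 : ℤ)⟧ at y
      replace hy : x = y ≫ (-g⟦(1 : ℤ)⟧') := hy
      exact ⟨-y, by rw [hy, Preadditive.neg_comp, Preadditive.comp_neg]⟩
  have z12 : f⟦(1 : ℤ)⟧' ≫ g⟦(1 : ℤ)⟧' = 0 := by
    rw [← Functor.map_comp, show f ≫ g = 0 from comp_distTriang_mor_zero₁₂ _ hΔ,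
      Functor.map_zero]
  have z31 : w ≫ f⟦(1 : ℤ)⟧' = 0 := comp_distTriang_mor_zero₃₁ _ hΔ
  have z23' : (FE.L.map g)⟦(1 : ℤ)⟧' ≫ w'⟦(1 : ℤ)⟧' = 0 := by
    rw [← Functor.map_comp, show FE.L.map g ≫ w' = 0 from comp_distTriang_mor_zero₂₃ _ hdist',
      Functor.map_zero]
  refine CIso.of_shift 1 (CIso.of_sphere fun A hA => ⟨?_, ?_⟩)
  · refine chom_ker (α := Preadditive.rightComp A w) (β := Preadditive.rightComp A (f⟦(1 : ℤ)⟧'))
      (γ := Preadditive.rightComp A (g⟦(1 : ℤ)⟧')) (α' := Preadditive.rightComp A w')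
      (β' := Preadditive.rightComp A ((FE.L.map f)⟦(1 : ℤ)⟧'))
      (γ' := Preadditive.rightComp A ((FE.L.map g)⟦(1 : ℤ)⟧'))
      (a := Preadditive.rightComp A (FE.u Z)) (b := Preadditive.rightComp A ((FE.u X)⟦(1 : ℤ)⟧'))
      (d := Preadditive.rightComp A ((FE.u Z)⟦(1 : ℤ)⟧')) ?_ ?_ ?_ ?_ ?_ ?_
      (CIso.sphere hZ hA).2 (CIso.sphere (CIso.shift hX 1) hA).1
      (CIso.sphere (CIso.shift hZ 1) hA).1
    · intro x
      change (x ≫ w) ≫ _ = (x ≫ FE.u Z) ≫ w'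
      rw [Category.assoc, Category.assoc, hw]
    · intro x
      change (x ≫ f⟦(1 : ℤ)⟧') ≫ (FE.u Y)⟦(1 : ℤ)⟧' = (x ≫ (FE.u X)⟦(1 : ℤ)⟧') ≫ _
      rw [Category.assoc, Category.assoc, hf]
    · intro x
      change (x ≫ g⟦(1 : ℤ)⟧') ≫ (FE.u Z)⟦(1 : ℤ)⟧' = (x ≫ (FE.u Y)⟦(1 : ℤ)⟧') ≫ _
      rw [Category.assoc, Category.assoc, hg]
    · intro x
      change (x ≫ w) ≫ f⟦(1 : ℤ)⟧' = 0
      rw [Category.assoc, z31, comp_zero]
    · intro x hx
      exact (ex hΔ).2.1 x hx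
    · intro x hx
      exact (ex hdist').1 x hx
  · refine chom_coker (β := Preadditive.rightComp A (f⟦(1 : ℤ)⟧'))
      (γ := Preadditive.rightComp A (g⟦(1 : ℤ)⟧')) (δ := Preadditive.rightComp A (w⟦(1 : ℤ)⟧'))
      (β' := Preadditive.rightComp A ((FE.L.map f)⟦(1 : ℤ)⟧'))
      (γ' := Preadditive.rightComp A ((FE.L.map g)⟦(1 : ℤ)⟧'))
      (δ' := Preadditive.rightComp A (w'⟦(1 : ℤ)⟧'))
      (b := Preadditive.rightComp A ((FE.u X)⟦(1 : ℤ)⟧'))
      (d := Preadditive.rightComp A ((FE.u Z)⟦(1 : ℤ)⟧'))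
      (e := Preadditive.rightComp A (((FE.u X)⟦(1 : ℤ)⟧')⟦(1 : ℤ)⟧')) ?_ ?_ ?_ ?_ ?_ ?_
      (CIso.sphere (CIso.shift hX 1) hA).2 (CIso.sphere (CIso.shift hZ 1) hA).2
      (CIso.sphere (CIso.shift (CIso.shift hX 1) 1) hA).1
    · intro x
      change (x ≫ f⟦(1 : ℤ)⟧') ≫ (FE.u Y)⟦(1 : ℤ)⟧' = (x ≫ (FE.u X)⟦(1 : ℤ)⟧') ≫ _
      rw [Category.assoc, Category.assoc, hf]
    · intro x
      change (x ≫ g⟦(1 : ℤ)⟧') ≫ (FE.u Z)⟦(1 : ℤ)⟧' = (x ≫ (FE.u Y)⟦(1 : ℤ)⟧') ≫ _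
      rw [Category.assoc, Category.assoc, hg]
    · intro x
      change (x ≫ w⟦(1 : ℤ)⟧') ≫ _ = (x ≫ (FE.u Z)⟦(1 : ℤ)⟧') ≫ w'⟦(1 : ℤ)⟧'
      rw [Category.assoc, Category.assoc, hw2]
    · intro x
      change (x ≫ (FE.L.map g)⟦(1 : ℤ)⟧') ≫ w'⟦(1 : ℤ)⟧' = 0
      rw [Category.assoc, z23', comp_zero]
    · intro x hx
      exact (ex hΔ).2.2 x hx
    · intro x hx
      exact (ex hdist').2.1 x hx

theorem Kc.of_thk {P : T → Prop} (hP : ∀ Z, P Z → Kc FE Z) {Z : T} (h : Thk P Z) : Kc FE Z := by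
  induction h with
  | base h => exact hP _ h
  | zero h => exact Kc.of_isLocal (isLocal_of_isZero h)
  | up _ ih => exact ih.shift 1
  | down _ ih => exact ih.shift (-1)
  | ext Δ hΔ _ _ ih₁ ih₃ => exact Kc.ext (f := Δ.mor₁) (g := Δ.mor₂) (w := Δ.mor₃) hΔ ih₁ ih₃
  | retract i r h _ ih => exact ih.retract i r h

end top

end Vale.Agent.P261.H621
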