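import Vale.Agent.P261.H621.CI
import Vale.Agent.P251.S.Local

/-!
# P261 (second hand-in): acyclicity and `E`-locality of `P`-modules

* `isZero_gk`: `Y ⊗ Q_1 ⊗ ⋯ ⊗ Q_j = 0` implies `Y ⊗ G_1 ⊗ ⋯ ⊗ G_j = 0`;
* `acyclic_gk`: `X ⊗ G_1 ⊗ ⋯ ⊗ G_j` is `K_i`-acyclic for `1 ≤ i ≤ j`;
* `eq_zero_of_acyclic`: maps from an object which is `K_j`-acyclic for `1 ≤ j ≤ i` to a `P`-module
  on which `p` is nilpotent and `v_i` invertible are zero;
* `isIso_gk`: `v_i` is invertible on `N ⊗ G_1 ⊗ ⋯ ⊗ G_{i-1} ⊗ Tl_i`.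
-/

open CategoryTheory MonoidalCategory Limits MonObj Pretriangulated

set_option linter.unusedSectionVars false

universe v u

namespace Vale.Agent.P261.H621

open Vale.Agent.P251 Vale.Agent.P251.T Vale.Agent.P251.S

section perm

variable {T : Type u} [Category.{v} T] [MonoidalCategory T] [SymmetricCategory T]

/-- `(A ⊗ B) ⊗ C ≅ (A ⊗ C) ⊗ B` -/
def swp (A B C : T) : (A ⊗ B) ⊗ C ≅ (A ⊗ C) ⊗ B :=
  α_ A B C ≪≫ whiskerLeftIso A (β_ B C) ≪≫ (α_ A C B).symm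

end perm

variable {T : Type u} [Category.{v} T] [Preadditive T] [HasZeroObject T] [HasShift T ℤ]
  [∀ n : ℤ, (shiftFunctor T n).Additive] [Pretriangulated T]
  [MonoidalCategory T] [SymmetricCategory T] [TensorTriangulated T] [MonoidalClosed T]
  [HasCoproducts.{0} T]
  {P : T} [MonObj P] [IsCommMonObj P] {p : ℤ} {v : ℕ → (𝟙_ T ⟶ P)}

theorem isZero_tensorRight {X : T} (h : IsZero X) (Y : T) : IsZero (X ⊗ Y) :=
  (tensorRight Y).map_isZero h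

theorem isZero_tensorLeft {X : T} (h : IsZero X) (Y : T) : IsZero (Y ⊗ X) :=
  (tensorLeft Y).map_isZero h

namespace KosFam

variable (D : KosFam P p v)

theorem isZero_G (i : ℕ) (Y : T) (h : IsZero (Y ⊗ D.Q (i + 1))) : IsZero (Y ⊗ D.G (i + 1)) := by
  have h1 : IsIso (Y ◁ (ModStr.self P).smul (v (i + 1))) :=
    isIso_of_isZero_cof (tens_dist Y (D.dist i)) h
  have h2 : IsIso (((D.isTel (i + 1)).tel.tensL Y).ι 0) := Tel.isIso_const _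
  exact (Triangle.isZero₁_iff_isIso₂ _ (tens_dist Y (D.distG (i + 1)))).2 h2

theorem isZero_gk (j : ℕ) (Y : T) (h : IsZero (Y ⊗ D.qk j)) : IsZero (Y ⊗ D.gk j) := by
  induction j generalizing Y with
  | zero => exact h
  | succ j ih =>
    have h1 : IsZero ((Y ⊗ D.qk j) ⊗ D.Q (j + 1)) := h.of_iso (α_ _ _ _)
    have h2 := (D.isZero_G j _ h1).of_iso (swp Y (D.G (j + 1)) (D.qk j))
    exact (ih (Y ⊗ D.G (j + 1)) h2).of_iso ((α_ Y (D.gk j) (D.G (j + 1))).symm ≪≫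
      swp Y (D.gk j) (D.G (j + 1)))

theorem acyclic_G {i : ℕ} (hv : InvData P p i v) (hi : 1 ≤ i) (X : T) :
    Acyclic (D.at_ i).K (X ⊗ D.G i) := by
  have h1 := (D.at_ i).isIso_K_ι hv hi X
  have h2 := dist_whiskerLeft ((D.at_ i).K) (dist_whiskerLeft X (D.distG i))
  exact (Triangle.isZero₁_iff_isIso₂ _ h2).2 h1

theorem acyclic_gk {i : ℕ} (hv : InvData P p i v) (hi : 1 ≤ i) (j : ℕ) (hij : i ≤ j) (X : T) :
    Acyclic (D.at_ i).K (X ⊗ D.gk j) := by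
  induction j, hij using Nat.le_induction with
  | base =>
    obtain ⟨i, rfl⟩ : ∃ k, i = k + 1 := ⟨i - 1, by omega⟩
    exact (D.acyclic_G hv hi (X ⊗ D.gk i)).of_iso (α_ _ _ _)
  | succ j hij ih =>
    exact (ih.tensor_right (D.G (j + 1))).of_iso (α_ _ _ _)

/-- `Q 0 ⊗ ⋯ ⊗ Q j ≅ Q 0 ⊗ (Q 1 ⊗ ⋯ ⊗ Q j)` -/
def kosIso (h : ℕ) : ∀ j : ℕ, (D.at_ h).kos (j + 1) ≅ D.Q 0 ⊗ D.qk j
  | 0 => λ_ (D.Q 0) ≪≫ (ρ_ (D.Q 0)).symm
  | j + 1 => whiskerRightIso (kosIso h j) (D.Q (j + 1)) ≪≫ α_ _ _ _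

/-- `K_{j+1} ⊗ W` -/
theorem isZero_of_acyclic {j : ℕ} {W : T} (h : Acyclic (D.at_ (j + 1)).K W) :
    IsZero ((((D.Q 0 ⊗ D.qk j) ⊗ W) ⊗ D.Tl (j + 1))) := by
  have h1 : IsZero (((D.at_ (j + 1)).kos (j + 1) ⊗ D.Tl (j + 1)) ⊗ W) := h
  exact h1.of_iso (swp _ _ _ ≪≫ whiskerRightIso (whiskerRightIso
    (D.kosIso (j + 1) j).symm _) _)

theorem acyclic_of_isZero {j : ℕ} {W : T}
    (h : IsZero ((((D.Q 0 ⊗ D.qk j) ⊗ W) ⊗ D.Tl (j + 1)))) : Acyclic (D.at_ (j + 1)).K W := by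
  change IsZero (((D.at_ (j + 1)).kos (j + 1) ⊗ D.Tl (j + 1)) ⊗ W)
  exact h.of_iso (swp _ _ _ ≪≫ whiskerRightIso (whiskerRightIso
    (D.kosIso (j + 1) j) _) _)

/-- Maps from an object which is `K_j`-acyclic for `1 ≤ j ≤ k + 1` to a `P`-module
on which `p` is nilpotent and `v_{k+1}` invertible are zero. -/
theorem eq_zero_of_acyclic {Y : T} (M : ModStr P Y) (hv0 : v 0 = p • η[P])
    (hn : IsNilpotent (M.sm (v 0))) (k : ℕ) (hi : IsIso (M.smul (v (k + 1)))) {W : T}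
    (hW : ∀ j, 1 ≤ j → j ≤ k + 1 → Acyclic (D.at_ j).K W) (f : W ⟶ Y) : f = 0 := by
  have key : ∀ j ≤ k, ∀ W : T, (∀ j, 1 ≤ j → j ≤ k + 1 → Acyclic (D.at_ j).K W) →
      ∀ g : (D.Q 0 ⊗ D.qk j) ⊗ W ⟶ Y, g = 0 := by
    intro j hj
    induction hj using Nat.decreasingInduction with
    | self =>
      intro W hW g
      apply M.eq_zero_of_extR
      let U := (D.isTel (k + 1)).tel.tensL ((D.Q 0 ⊗ D.qk k) ⊗ W)
      obtain ⟨l, hl⟩ := U.exists_desc_const (M.smul (v (k + 1))) (M.extR g)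
        (by rw [M.extR_smul]; exact M.self_smul_extR g (v (k + 1)))
      have hz : IsZero U.obj := D.isZero_of_acyclic (hW (k + 1) (by omega) le_rfl)
      rw [← hl, hz.eq_of_src l 0, comp_zero]
    | of_succ j hj ih =>
      intro W hW g
      apply M.eq_zero_of_extR
      let V : T := (D.Q 0 ⊗ D.qk j) ⊗ W
      -- maps from `(V ⊗ Q)⟦-1⟧` are zero
      have hQ : ∀ x : (V ⊗ D.Q (j + 1))⟦(-1 : ℤ)⟧ ⟶ Y, x = 0 := by
        intro x
        have e : (V ⊗ D.Q (j + 1))⟦(-1 : ℤ)⟧ ≅ (D.Q 0 ⊗ D.qk (j + 1)) ⊗ W⟦(-1 : ℤ)⟧ :=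
          (shiftFunctor T (-1 : ℤ)).mapIso (swp _ _ _ ≪≫ whiskerRightIso (α_ _ _ _) W) ≪≫
            ((tensorLeft (D.Q 0 ⊗ D.qk (j + 1))).commShiftIso (-1 : ℤ)).symm.app W
        have h1 := ih (W⟦(-1 : ℤ)⟧) (fun j h1 h2 => (hW j h1 h2).shift _) (e.inv ≫ x)
        rw [← cancel_epi e.inv, h1, comp_zero]
      -- every map from `V ⊗ P` extends along `V ◁ v`
      have hext : ∀ x : V ⊗ P ⟶ Y, ∃ y : V ⊗ P ⟶ Y,
          (V ◁ (ModStr.self P).smul (v (j + 1))) ≫ y = x := by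
        intro x
        have hd := inv_rot_of_distTriang _ (tens_dist V (D.dist j))
        obtain ⟨y, hy⟩ := Triangle.yoneda_exact₂ _ hd x (hQ _)
        exact ⟨y, hy.symm⟩
      choose ex hex using hext
      let G : ℕ → (V ⊗ P ⟶ Y) := fun n => Nat.rec (M.extR g) (fun _ y => ex y) n
      have hG : ∀ n, (V ◁ (ModStr.self P).smul (v (j + 1))) ≫ G (n + 1) = G n :=
        fun n => hex (G n)
      let U := (D.isTel (j + 1)).tel.tensL V
      obtain ⟨l, hl⟩ := U.exists_desc (Z := Y) G hG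
      have hz : IsZero U.obj := D.isZero_of_acyclic (hW (j + 1) (by omega) (by omega))
      have h0 := hl 0
      rw [hz.eq_of_src l 0, comp_zero] at h0
      exact h0.symm
  refine eq_zero_of_nilpotent hn ?_ f
  intro g hg
  have hg' : p • g = 0 := by
    have h2 : M.smul (v 0) = p • 𝟙 Y := by
      rw [hv0]
      have := map_zsmul M.smulHom p η[P]
      change M.smul (p • η[P]) = p • M.smul η[P] at this
      rw [this, M.smul_one]
    have hg2 : g ≫ M.smul (v 0) = 0 := hg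
    rw [h2, Preadditive.comp_zsmul, Category.comp_id] at hg2
    exact hg2
  obtain ⟨l, hl⟩ := Triangle.yoneda_exact₂ _ (tens_dist W D.dist0) ((ρ_ W).hom ≫ g) (by
    change (W ◁ (p • 𝟙 (𝟙_ T))) ≫ (ρ_ W).hom ≫ g = 0
    have h3 : W ◁ (p • 𝟙 (𝟙_ T)) = p • (W ◁ (𝟙 (𝟙_ T))) :=
      map_zsmul ((tensorLeft W).mapAddHom (X := 𝟙_ T) (Y := 𝟙_ T)) p (𝟙 _)
    rw [h3, MonoidalCategory.whiskerLeft_id, Preadditive.zsmul_comp, Category.id_comp,
      ← Preadditive.comp_zsmul, hg', comp_zero])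
  change W ⊗ D.Q 0 ⟶ Y at l
  replace hl : (ρ_ W).hom ≫ g = (W ◁ D.q0) ≫ l := hl
  have e : W ⊗ D.Q 0 ≅ (D.Q 0 ⊗ D.qk 0) ⊗ W :=
    β_ W (D.Q 0) ≪≫ whiskerRightIso (ρ_ (D.Q 0)).symm W
  have h1 := key 0 (Nat.zero_le _) W hW (e.inv ≫ l)
  have h2 : l = 0 := by rw [← cancel_epi e.inv, h1, comp_zero]
  rw [h2, comp_zero] at hl
  rw [← cancel_epi (ρ_ W).hom, hl, comp_zero]

/-- nilpotence on `N ⊗ Q_1 ⊗ ⋯ ⊗ Q_k` -/
theorem nil_qk {N : T} (M : ModStr P N) {h : ℕ} (hv : InvData P p h v)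
    (hn : IsNilpotent (M.sm (v 0))) (k : ℕ) (hk : k ≤ h) (j : ℕ) (hj : j ≤ k) :
    IsNilpotent ((M.tensorRight (D.qk k)).sm (v j)) := by
  induction k generalizing j with
  | zero =>
    obtain rfl : j = 0 := by omega
    exact isNilpotent_tensorRight M _ _ hn
  | succ k ih =>
    have h1 := (D.at_ h).nil_step (M.tensorRight (D.qk k)) hv (k + 1) hk
      (fun j hj => ih (by omega) j (by omega)) j (by omega)
    exact isNilpotent_conj (α_ N (D.qk k) (D.Q (k + 1))) (KosData.smul_tensor_assoc M _ _ _) h1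

/-- `v_{k+1}` (of `N`) is invertible on `N ⊗ G_1 ⊗ ⋯ ⊗ G_k ⊗ Tl_{k+1}`. -/
theorem isIso_gk {N : T} (M : ModStr P N) {h : ℕ} (hv : InvData P p h v)
    (hn : IsNilpotent (M.sm (v 0))) (k : ℕ) (hk : k + 1 ≤ h) :
    IsIso ((M.tensorRight (D.gk k ⊗ D.Tl (k + 1))).smul (v (k + 1))) := by
  have h1 := isIso_a2 (M.tensorRight (D.qk k)) v (k + 1) (hv.inv (k + 1) (by omega) hk)
    (fun j hj => D.nil_qk M hv hn k (by omega) j (by omega)) (D.isTel (k + 1)).tel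
  rw [ModStr.tensorRight_smul, ModStr.tensorRight_smul] at h1
  have hE := cof_dist (M.smul (v (k + 1)))
  set E := cof (M.smul (v (k + 1))) with hEdef
  have h2 : IsZero ((E ⊗ D.qk k) ⊗ D.Tl (k + 1)) :=
    isZero_cof_of_isIso (tensR_dist (D.Tl (k + 1)) (tensR_dist (D.qk k) hE)) h1
  have h3 : IsZero ((E ⊗ D.Tl (k + 1)) ⊗ D.gk k) :=
    D.isZero_gk k _ (h2.of_iso (swp _ _ _))
  have h4 : IsZero (E ⊗ (D.gk k ⊗ D.Tl (k + 1))) :=
    h3.of_iso ((α_ _ _ _).symm ≪≫ swp _ _ _)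
  rw [ModStr.tensorRight_smul]
  exact isIso_of_isZero_cof (tensR_dist (D.gk k ⊗ D.Tl (k + 1)) hE) h4

end KosFam

end Vale.Agent.P261.H621
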