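import Vale.Agent.P261.H621.Defs
import Vale.Agent.P251.S.Conv10

/-!
# P261 (second hand-in): maps from finite even complexes into the Adams tower

* `IsSh Z A`: `A` is a shift of `Z`;
* `ParC`, `LiftC`: odd vanishing and exactness of `Hom(Z⟦n⟧, -)`; for finite even complexes from the
  unit;
* `PSC`: surjectivity in a composable pair; `Tow.psc`;
* `eq_zero_of_hol`: if the homotopy limit of the tower is zero then the transition maps are zero on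
  `Hom(Z⟦n⟧, -)`;
* `Tow.isZero_hol`: the homotopy limit is zero (from the proof of `Tow.converge`).
-/

open CategoryTheory MonoidalCategory Limits MonObj Pretriangulated

set_option linter.unusedSectionVars false

universe v u

namespace Vale.Agent.P261.H621

open Vale.Agent.P251 Vale.Agent.P251.T Vale.Agent.P251.S

section pre

variable {T : Type u} [Category.{v} T] [Preadditive T] [HasZeroObject T]
    [HasShift T ℤ] [∀ n : ℤ, (shiftFunctor T n).Additive] [Pretriangulated T]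

theorem exists_unsh {A W : T} (m : ℤ) (f : A ⟶ W⟦m⟧) :
    ∃ (e : A ≅ A⟦-m⟧⟦m⟧) (f' : A⟦-m⟧ ⟶ W), f = e.hom ≫ f'⟦m⟧' := by
  refine ⟨((shiftFunctorCompIsoId T (-m) m (by simp)).app A).symm, ?_⟩
  let g : A⟦-m⟧⟦m⟧ ⟶ W⟦m⟧ := (shiftFunctorCompIsoId T (-m) m (by simp)).hom.app A ≫ f
  refine ⟨(shiftFunctor T m).preimage g, ?_⟩
  simp [g]

/-- `A` is a shift of `Z` -/
def IsSh (Z A : T) : Prop := ∃ n : ℤ, Nonempty (A ≅ Z⟦n⟧)

theorem IsSh.of_iso {Z A B : T} (e : A ≅ B) (h : IsSh Z A) : IsSh Z B := by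
  obtain ⟨n, ⟨i⟩⟩ := h
  exact ⟨n, ⟨e.symm ≪≫ i⟩⟩

theorem IsSh.shift {Z A : T} (h : IsSh Z A) (m : ℤ) : IsSh Z (A⟦m⟧) := by
  obtain ⟨n, ⟨i⟩⟩ := h
  exact ⟨n + m, ⟨(shiftFunctor T m).mapIso i ≪≫ ((shiftFunctorAdd T n m).app _).symm⟩⟩

theorem isSh_self (Z : T) : IsSh Z Z := ⟨0, ⟨(shiftFunctorZero T ℤ).symm.app _⟩⟩

theorem isSh_shift (Z : T) (n : ℤ) : IsSh Z (Z⟦n⟧) := ⟨n, ⟨Iso.refl _⟩⟩

/-- `Hom(Z⟦n⟧, V) = 0` for odd `n` -/
def ParC (Z V : T) : Prop :=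
  ∀ (A : T) (n : ℤ), Nonempty (A ≅ Z⟦n⟧) → n % 2 = 1 → ∀ x : A ⟶ V, x = 0

/-- exactness of `Hom(Z⟦n⟧, U) → Hom(Z⟦n⟧, V) → Hom(Z⟦n⟧, W)` -/
def LiftC (Z : T) {U V W : T} (a : U ⟶ V) (b : V ⟶ W) : Prop :=
  ∀ A : T, IsSh Z A → ∀ x : A ⟶ V, x ≫ b = 0 → ∃ y : A ⟶ U, y ≫ a = x

/-- the image of `Hom(Z⟦n⟧, V)` in `Hom(Z⟦n⟧, W)` is the image of `Hom(Z⟦n⟧, U)` -/
def PSC (Z : T) {U V W : T} (a : U ⟶ V) (b : V ⟶ W) : Prop :=
  ∀ A : T, IsSh Z A → ∀ x : A ⟶ V, ∃ y : A ⟶ U, (y ≫ a) ≫ b = x ≫ b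

theorem ParC.ext {V : T} (Δ : Triangle T) (hΔ : Δ ∈ distTriang T) (h₁ : ParC Δ.obj₁ V)
    (h₃ : ParC Δ.obj₃ V) : ParC Δ.obj₂ V := by
  rintro A n ⟨e⟩ hn x
  obtain ⟨w, hw⟩ := exists_dist_shift hΔ n
  obtain ⟨y, hy⟩ := Triangle.yoneda_exact₂ _ hw (e.inv ≫ x) (h₁ _ n ⟨Iso.refl _⟩ hn _)
  have h0 : y = 0 := h₃ _ n ⟨Iso.refl _⟩ hn y
  rw [h0] at hy
  have h5 : e.inv ≫ x = 0 := hy.trans comp_zero
  rw [← cancel_epi e.inv, h5, comp_zero]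

theorem LiftC.ext {U V W : T} {a : U ⟶ V} {b : V ⟶ W} (hab : a ≫ b = 0) (Δ : Triangle T)
    (hΔ : Δ ∈ distTriang T)
    (h₁V : ParC Δ.obj₁ V) (h₃V : ParC Δ.obj₃ V) (h₃U : ParC Δ.obj₃ U) (h₁W : ParC Δ.obj₁ W)
    (h₁ : LiftC Δ.obj₁ a b) (h₃ : LiftC Δ.obj₃ a b) : LiftC Δ.obj₂ a b := by
  rintro A ⟨n, ⟨e⟩⟩ x hx
  suffices h : ∀ x : Δ.obj₂⟦n⟧ ⟶ V, x ≫ b = 0 → ∃ y : Δ.obj₂⟦n⟧ ⟶ U, y ≫ a = x by
    obtain ⟨y, hy⟩ := h (e.inv ≫ x) (by rw [Category.assoc, hx, comp_zero])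
    exact ⟨e.hom ≫ y, by rw [Category.assoc, hy, Iso.hom_inv_id_assoc]⟩
  clear x hx
  intro x hx
  by_cases hn : n % 2 = 1
  · refine ⟨0, ?_⟩
    rw [zero_comp]
    exact (ParC.ext Δ hΔ h₁V h₃V _ n ⟨Iso.refl _⟩ hn x).symm
  obtain ⟨w, hw⟩ := exists_dist_shift hΔ n
  -- restrict to the first term
  obtain ⟨y₁, hy₁⟩ := h₁ _ (isSh_shift _ n) (Δ.mor₁⟦n⟧' ≫ x) (by rw [Category.assoc, hx, comp_zero])
  -- extend to the second term
  obtain ⟨y₂, hy₂⟩ := Triangle.yoneda_exact₂ _ (inv_rot_of_distTriang _ hw) y₁ (by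
    refine h₃U _ (n - 1) ⟨?_⟩ (by omega) _
    exact ((shiftFunctorAdd' T n (-1) (n - 1) (by omega)).app Δ.obj₃).symm)
  change Δ.obj₂⟦n⟧ ⟶ U at y₂
  replace hy₂ : y₁ = Δ.mor₁⟦n⟧' ≫ y₂ := hy₂
  obtain ⟨x₃, hx₃⟩ := Triangle.yoneda_exact₂ _ hw (x - y₂ ≫ a) (by
    change Δ.mor₁⟦n⟧' ≫ (x - y₂ ≫ a) = 0
    rw [Preadditive.comp_sub, ← Category.assoc, ← hy₂, hy₁, sub_self])
  change Δ.obj₃⟦n⟧ ⟶ V at x₃
  replace hx₃ : x - y₂ ≫ a = Δ.mor₂⟦n⟧' ≫ x₃ := hx₃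
  have hb : x₃ ≫ b = 0 := by
    obtain ⟨u, hu⟩ := Triangle.yoneda_exact₃ _ hw (x₃ ≫ b) (by
      change Δ.mor₂⟦n⟧' ≫ x₃ ≫ b = 0
      rw [← Category.assoc, ← hx₃, Preadditive.sub_comp, hx, Category.assoc, hab, comp_zero,
        sub_self])
    have h0 : u = 0 := by
      refine h₁W _ (n + 1) ⟨?_⟩ (by omega) u
      exact ((shiftFunctorAdd' T n 1 (n + 1) (by omega)).app Δ.obj₁).symm
    refine hu.trans ?_
    rw [h0]
    exact comp_zero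
  obtain ⟨y₃, hy₃⟩ := h₃ _ (isSh_shift _ n) x₃ hb
  refine ⟨y₂ + Δ.mor₂⟦n⟧' ≫ y₃, ?_⟩
  rw [Preadditive.add_comp, Category.assoc, hy₃, ← hx₃]
  abel

theorem LiftC.shiftObj {Z : T} {U V W : T} {a : U ⟶ V} {b : V ⟶ W} (h : LiftC Z a b) (m : ℤ) :
    LiftC (Z⟦m⟧) a b := by
  rintro A ⟨n, ⟨e⟩⟩ x hx
  exact h A ⟨m + n, ⟨e ≪≫ ((shiftFunctorAdd T m n).app _).symm⟩⟩ x hx

theorem PSC.of_iso {Z U V W : T} {a : U ⟶ V} {b : V ⟶ W} (h : PSC Z a b) {U' V' W' : T}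
    {a' : U' ⟶ V'} {b' : V' ⟶ W'}
    (e₁ : U ≅ U') (e₂ : V ≅ V') (e₃ : W ≅ W') (ha : a ≫ e₂.hom = e₁.hom ≫ a')
    (hb : b ≫ e₃.hom = e₂.hom ≫ b') : PSC Z a' b' := by
  intro A hA x
  obtain ⟨y, hy⟩ := h A hA (x ≫ e₂.inv)
  refine ⟨y ≫ e₁.hom, ?_⟩
  rw [Category.assoc, Category.assoc, ← reassoc_of% ha, ← hb, ← Category.assoc a,
    ← Category.assoc y, ← Category.assoc y, hy, Category.assoc, Category.assoc, hb,
    Iso.inv_hom_id_assoc]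

theorem PSC.shift {Z U V W : T} {a : U ⟶ V} {b : V ⟶ W} (h : PSC Z a b) (n : ℤ) :
    PSC Z (a⟦n⟧') (b⟦n⟧') := by
  intro A hA x
  obtain ⟨e, x', rfl⟩ := exists_unsh n x
  obtain ⟨y, hy⟩ := h _ (hA.shift (-n)) x'
  refine ⟨e.hom ≫ y⟦n⟧', ?_⟩
  rw [Category.assoc, Category.assoc, Category.assoc, ← Functor.map_comp, ← Functor.map_comp,
    ← Functor.map_comp, ← Category.assoc y, hy]

/-- **surjectivity in the tower** -/
theorem psc_t (J : Tow T) {Z : T} {s : ℕ} (h : LiftC Z (J.d s) (J.d (s + 1))) :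
    PSC Z (J.c (s + 1)) ((J.c s)⟦(1 : ℤ)⟧') := by
  intro A hA x
  obtain ⟨e, x', rfl⟩ := exists_unsh 1 x
  obtain ⟨e', he'⟩ := h _ (hA.shift (-1)) (x' ≫ J.a (s + 1)) (by
    rw [Tow.d, Category.assoc, ← Category.assoc (J.a (s + 1)), J.a_b, zero_comp, comp_zero])
  have hz : (x' - e' ≫ J.b s) ≫ J.a (s + 1) = 0 := by
    rw [Preadditive.sub_comp, ← he', Tow.d, Category.assoc, sub_self]
  obtain ⟨y, hy⟩ := Triangle.coyoneda_exact₁ _ (J.dist (s + 1)) ((x' - e' ≫ J.b s)⟦(1 : ℤ)⟧') (by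
    change (x' - e' ≫ J.b s)⟦(1 : ℤ)⟧' ≫ (J.a (s + 1))⟦(1 : ℤ)⟧' = 0
    rw [← Functor.map_comp, hz, Functor.map_zero])
  change _ ⟶ J.J (s + 2) at y
  replace hy : (x' - e' ≫ J.b s)⟦(1 : ℤ)⟧' = y ≫ J.c (s + 1) := hy
  refine ⟨e.hom ≫ y, ?_⟩
  rw [Category.assoc, Category.assoc, Category.assoc, ← Category.assoc y, ← hy,
    ← Functor.map_comp, ← Functor.map_comp, Preadditive.sub_comp, Category.assoc e', J.b_c,
    comp_zero, sub_zero]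

/-- surjectivity in the desuspended tower -/
theorem psc (J : Tow T) {Z : T} {s : ℕ} (h : LiftC Z (J.d s) (J.d (s + 1))) :
    PSC Z (J.i (s + 1)) (J.i s) := by
  let e₁ : (J.J (s + 2))⟦-((s + 2 : ℕ) : ℤ)⟧ ≅ J.X (s + 2) := Iso.refl _
  let e₂ : ((J.J (s + 1))⟦(1 : ℤ)⟧)⟦-((s + 2 : ℕ) : ℤ)⟧ ≅ J.X (s + 1) :=
    (Tow.shN (s + 1)).symm.app (J.J (s + 1))
  let e₃ : (((J.J s)⟦(1 : ℤ)⟧)⟦(1 : ℤ)⟧)⟦-((s + 2 : ℕ) : ℤ)⟧ ≅ J.X s :=
    (Tow.shN (s + 1)).symm.app ((J.J s)⟦(1 : ℤ)⟧) ≪≫ (Tow.shN s).symm.app (J.J s)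
  refine ((psc_t J h).shift (-((s + 2 : ℕ) : ℤ))).of_iso e₁ e₂ e₃ ?_ ?_
  · exact (Category.id_comp (J.i (s + 1))).symm
  · have := (Tow.shN (T := T) (s + 1)).inv.naturality (J.c s)
    exact (Category.assoc _ _ _).symm.trans
      ((congrArg (· ≫ (Tow.shN s).inv.app (J.J s)) this).trans (Category.assoc _ _ _))

section hol

variable [HasProducts.{0} T]

/-- if the homotopy limit of the tower is zero then the transition maps are zero on `Hom(A, -)` -/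
theorem eq_zero_of_hol {X : ℕ → T} {i : ∀ s, X (s + 1) ⟶ X s} {H : T} {π : ∀ s, H ⟶ X s}
    (hH : IsHol i π) (hz : IsZero H) {A : T} {s₀ : ℕ}
    (hs : ∀ s, s₀ ≤ s → ∀ x : A ⟶ X (s + 1), ∃ y : A ⟶ X (s + 2), (y ≫ i (s + 1)) ≫ i s = x ≫ i s)
    {s : ℕ} (hs0 : s₀ ≤ s) (y : A ⟶ X (s + 1)) : y ≫ i s = 0 := by
  choose c hc using fun (n : ℕ) (x : A ⟶ X (s + n + 1)) => hs (s + n) (by omega) x
  let yy : ∀ n, (A ⟶ X (s + n + 1)) := fun n =>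
    Nat.rec (motive := fun n => (A ⟶ X (s + n + 1))) y (fun n yn => c n yn) n
  have hyy : ∀ n, (yy (n + 1) ≫ i (s + n + 1)) ≫ i (s + n) = yy n ≫ i (s + n) :=
    fun n => hc n _
  -- compatible family
  let z : ∀ n, (A ⟶ X n) := fun n => yy n ≫ twr i n (s + n + 1) (by omega)
  have hz' : ∀ n, z (n + 1) ≫ i n = z n := by
    intro n
    simp only [z]
    rw [Category.assoc, twr_i]
    have e1 : twr i n (s + (n + 1) + 1) (by omega) =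
        i (s + n + 1) ≫ i (s + n) ≫ twr i n (s + n) (by omega) := by
      rw [i_twr, i_twr]
      rfl
    have e2 : twr i n (s + n + 1) (by omega) = i (s + n) ≫ twr i n (s + n) (by omega) := by
      rw [i_twr]
    rw [e1, e2]
    simp only [← Category.assoc]
    rw [hyy n]
  have hz0 : ∀ n, yy n ≫ twr i s (s + n + 1) (by omega) = y ≫ i s := by
    intro n
    induction n with
    | zero => simp only [Nat.add_zero, twr_succ]; rfl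
    | succ n ih =>
      rw [← ih]
      have e1 : twr i s (s + (n + 1) + 1) (by omega) =
          i (s + n + 1) ≫ i (s + n) ≫ twr i s (s + n) (by omega) := by
        rw [i_twr, i_twr]
        rfl
      have e2 : twr i s (s + n + 1) (by omega) = i (s + n) ≫ twr i s (s + n) (by omega) := by
        rw [i_twr]
      rw [e1, e2]
      simp only [← Category.assoc]
      rw [hyy n]
  obtain ⟨w, hw⟩ := hH
  obtain ⟨g, hg⟩ := Triangle.coyoneda_exact₂ _ hw (Pi.lift z) (by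
    change Pi.lift z ≫ (𝟙 (∏ᶜ X) - holShift i) = 0
    apply Pi.hom_ext
    intro n
    rw [Category.assoc, Preadditive.sub_comp, Category.id_comp, holShift, Pi.lift_π,
      Preadditive.comp_sub, Pi.lift_π, ← Category.assoc, Pi.lift_π, hz', sub_self, zero_comp])
  have h0 : Pi.lift z = 0 := by
    rw [hg, hz.eq_of_tgt g 0]
    exact zero_comp
  have h1 : z s = 0 := by
    have := congrArg (fun f => f ≫ Pi.π X s) h0
    simpa using this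
  have h2 := hz0 s
  change yy s ≫ twr i s (s + s + 1) _ = 0 at h1
  rw [← h2, h1]

end hol

end pre

section mon

variable {T : Type u} [Category.{v} T] [Preadditive T] [HasZeroObject T]
    [HasShift T ℤ] [∀ n : ℤ, (shiftFunctor T n).Additive] [Pretriangulated T] [IsTriangulated T]
    [MonoidalCategory T] [SymmetricCategory T] [TensorTriangulated T] [MonoidalClosed T]
    [HasCoproducts.{0} T] [HasProducts.{0} T] [StableCat T]

theorem parC_of_finEven {Z : T} (hZ : FinEven Z) {V : T} (h : ParZero 0 V) : ParC Z V := by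
  induction hZ with
  | zero hz =>
    rintro A n ⟨e⟩ _ x
    exact (((shiftFunctor T n).map_isZero hz).of_iso e).eq_of_src _ _
  | sphere k =>
    rintro A n ⟨e⟩ hn x
    exact h A (2 * k + n) ⟨e ≪≫ ((shiftFunctorAdd' T (2 * k) n (2 * k + n) rfl).app _).symm⟩
      (by omega) x
  | ext Δ hΔ _ _ ih₁ ih₃ => exact ParC.ext Δ hΔ ih₁ ih₃

theorem liftC_one {U V W : T} {a : U ⟶ V} {b : V ⟶ W} (h : Ex (𝟙_ T) a b) :
    LiftC (𝟙_ T) a b := by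
  rintro A ⟨n, hA⟩ x hx
  obtain ⟨y, hy⟩ := h A ⟨n, hA⟩ (x ≫ (λ_ V).inv) (by
    rw [Category.assoc, ← leftUnitor_inv_naturality, ← Category.assoc, hx, zero_comp])
  refine ⟨y ≫ (λ_ U).hom, ?_⟩
  rw [Category.assoc, ← leftUnitor_naturality, ← Category.assoc, hy]
  simp

theorem liftC_of_finEven {Z : T} (hZ : FinEven Z) {U V W : T} {a : U ⟶ V} {b : V ⟶ W}
    (hab : a ≫ b = 0) (hU : ParZero 0 U) (hV : ParZero 0 V) (hW : ParZero 0 W)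
    (h : Ex (𝟙_ T) a b) : LiftC Z a b := by
  induction hZ with
  | zero hz =>
    rintro A ⟨n, ⟨e⟩⟩ x _
    exact ⟨0, (((shiftFunctor T n).map_isZero hz).of_iso e).eq_of_src _ _⟩
  | sphere k => exact (liftC_one h).shiftObj _
  | ext Δ hΔ h₁ h₃ ih₁ ih₃ =>
    exact LiftC.ext hab Δ hΔ (parC_of_finEven h₁ hV) (parC_of_finEven h₃ hV)
      (parC_of_finEven h₃ hU) (parC_of_finEven h₁ hW) ih₁ ih₃

/-- The homotopy limit of the tower is zero (from the proof of `Tow.converge`). -/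
theorem exists_hol_isZero {J J' : Tow T} (φ : Tow.Mor J J') {K R : T}
    (hη : ∀ s, IsIso (K ◁ φ.f s)) (hloc : ∀ s, IsLocal K (J'.J s))
    (hR : ∀ s, R ◁ J.c s = 0) {a : ℕ}
    (hKR : Built (fun Z : T => ∃ W : T, Nonempty (Z ≅ R ⊗ W)) a K) {b : ℕ}
    (hKF : Built FinEven b K) (hodd : ∀ s, ParZero 0 (J'.W s)) (s₁ : ℕ)
    (hvan : ∀ s, s₁ ≤ s → Ex (𝟙_ T) (J'.d s) (J'.d (s + 1))) :
    ∃ (H : T) (π : ∀ s, H ⟶ J'.X s), IsHol J'.i π ∧ IsZero H := by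
  obtain ⟨H, π₀, w, hw⟩ := distinguished_cocone_triangle₁ (𝟙 (∏ᶜ J'.X) - holShift J'.i)
  have hH : IsHol J'.i (fun s => π₀ ≫ Pi.π J'.X s) := by
    refine ⟨w, ?_⟩
    have : Pi.lift (fun s => π₀ ≫ Pi.π J'.X s) = π₀ := by
      apply Pi.hom_ext
      intro s
      simp
    rw [this]
    exact hw
  refine ⟨H, _, hH, hol_isZero hH (P := FinEven) (s₀ := s₁ + 1) (fun Z hZ => ?_) hKF
    (m := a) (fun s => ?_) (fun s => ?_)⟩
  · refine J'.good hZ.prodComm s₁ (fun s hs => ?_)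
    exact hZ.ex (J'.d_d s) (hodd s) (hodd (s + 1)) (hodd (s + 2)) (hvan s hs)
  · exact φ.ghost hη _ (Tow.ghost_of_built hR hKR s)
  · -- localness of the shifts
    intro W hW f
    obtain ⟨e, f', rfl⟩ := exists_unshift (-(s : ℤ)) f
    have hW' : Acyclic K (W⟦-(-(s : ℤ))⟧) :=
      ((shiftFunctor T (-(-(s : ℤ)))).map_isZero hW).of_iso (tshI K W (-(-(s : ℤ)))).symm
    rw [hloc s hW' f', Functor.map_zero]
    exact comp_zero

/-- Maps from shifts of finite even complexes die in the tower. -/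
theorem finEven_tow {J' : Tow T} {H : T} {π : ∀ s, H ⟶ J'.X s} (hH : IsHol J'.i π)
    (hz : IsZero H) (hodd : ∀ s, ParZero 0 (J'.W s)) (s₁ : ℕ)
    (hvan : ∀ s, s₁ ≤ s → Ex (𝟙_ T) (J'.d s) (J'.d (s + 1))) {Z : T} (hZ : FinEven Z) {s : ℕ}
    (hs : s₁ ≤ s) {A : T} (hA : IsSh Z A) (y : A ⟶ J'.X (s + 1)) : y ≫ J'.i s = 0 := by
  refine eq_zero_of_hol hH hz (s₀ := s₁) (fun s hs x => ?_) hs y
  exact psc J' (liftC_of_finEven hZ (J'.d_d s) (hodd s) (hodd (s + 1)) (hodd (s + 2))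
    (hvan s hs)) A hA x

/-- Maps from shifts of objects built from finite even complexes die in the tower. -/
theorem built_tow {P : T → Prop} {X : ℕ → T} (i : ∀ s, X (s + 1) ⟶ X s) (s₁ : ℕ)
    (hP : ∀ Z, P Z → ∀ s, s₁ ≤ s → ∀ A, IsSh Z A → ∀ y : A ⟶ X (s + 1), y ≫ i s = 0) {a : ℕ}
    {W : T} (hW : Built P a W) : ∀ s t (h : s ≤ t), s₁ ≤ s → s + a ≤ t → ∀ A, IsSh W A →
      ∀ y : A ⟶ X t, y ≫ twr i s t h = 0 := by
  induction hW with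
  | @base Z h =>
    intro s t hst hs ht A hA y
    have h1 : twr i s t hst = twr i (s + 1) t ht ≫ i s := by rw [twr_i]
    rw [h1, ← Category.assoc]
    exact hP _ h s hs A hA _
  | iso e _ ih =>
    rintro s t hst hs ht A ⟨n, ⟨i⟩⟩
    exact ih s t hst hs ht A ⟨n, ⟨i ≪≫ (shiftFunctor T n).mapIso e.symm⟩⟩
  | up _ ih =>
    rintro s t hst hs ht A ⟨n, ⟨i⟩⟩
    exact ih s t hst hs ht A ⟨1 + n, ⟨i ≪≫ ((shiftFunctorAdd T 1 n).app _).symm⟩⟩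
  | down _ ih =>
    rintro s t hst hs ht A ⟨n, ⟨i⟩⟩
    exact ih s t hst hs ht A ⟨-1 + n, ⟨i ≪≫ ((shiftFunctorAdd T (-1) n).app _).symm⟩⟩
  | @ext a b Δ hΔ _ _ ih₁ ih₃ =>
    rintro s t hst hs ht A ⟨n, ⟨e⟩⟩ y
    obtain ⟨w, hw⟩ := exists_dist_shift hΔ n
    obtain ⟨z, hz⟩ := Triangle.yoneda_exact₂ _ hw ((e.inv ≫ y) ≫ twr i (s + b) t (by omega)) (by
      change Δ.mor₁⟦n⟧' ≫ (e.inv ≫ y) ≫ twr i (s + b) t (by omega) = 0
      rw [← Category.assoc]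
      exact ih₁ (s + b) t (by omega) (by omega) (by omega) _ (isSh_shift _ n) _)
    change Δ.obj₃⟦n⟧ ⟶ _ at z
    have h3 : z ≫ twr i s (s + b) (by omega) = 0 :=
      ih₃ s (s + b) (by omega) hs le_rfl _ (isSh_shift _ n) z
    have h4 : (e.inv ≫ y) ≫ twr i (s + b) t (by omega) = Δ.mor₂⟦n⟧' ≫ z := hz
    rw [← cancel_epi e.inv, comp_zero, ← twr_comp i s (s + b) t (by omega) (by omega),
      ← Category.assoc y, ← Category.assoc e.inv, ← Category.assoc e.inv, h4, Category.assoc, h3,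
      comp_zero]
  | coprod Y _ ih =>
    rintro s t hst hs ht A ⟨n, ⟨e⟩⟩ y
    let hc := isColimitOfHasCoproductOfPreservesColimit (shiftFunctor T n) Y
    rw [← cancel_epi e.inv, comp_zero]
    refine Cofan.IsColimit.hom_ext hc _ _ fun j => ?_
    change (Sigma.ι Y j)⟦n⟧' ≫ e.inv ≫ y ≫ twr i s t hst = (Sigma.ι Y j)⟦n⟧' ≫ 0
    rw [comp_zero, ← Category.assoc, ← Category.assoc]
    exact ih j s t hst hs ht _ (isSh_shift _ n) _

end mon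

end Vale.Agent.P261.H621
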