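import Vale.Agent.P261.H621.Nil1
import Vale.Agent.P261.TopMain
import Vale.Agent.P251.M.CofIn

/-!
# P261 (second hand-in): nilpotence

The composite transition map `X'_N ⟶ X'_0` of the (desuspended) tower `L (J^s ⊗ S/p)` is zero for
large `N`; hence `L (S/p)` is in the thick subcategory generated by the objects
`L (R^{⊗ (s+1)} ⊗ S/p)`.
-/

open CategoryTheory MonoidalCategory Limits MonObj Pretriangulated

set_option linter.unusedSectionVars false

universe v u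

namespace Vale.Agent.P261.H621

open Vale.Agent.P251 Vale.Agent.P251.T Vale.Agent.P251.S Vale.Agent.P251.H

section pre

variable {T : Type u} [Category.{v} T] [Preadditive T] [HasZeroObject T]
    [HasShift T ℤ] [∀ n : ℤ, (shiftFunctor T n).Additive] [Pretriangulated T] [IsTriangulated T]

theorem thk_extClosed (P : T → Prop) : M.ExtClosed (Thk P) where
  zero _ h := Thk.zero h
  ext D h₁ h₃ := Thk.mid D h₁ h₃

theorem Thk.shift {P : T → Prop} {Z : T} (h : Thk P Z) (n : ℤ) : Thk P (Z⟦n⟧) := by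
  induction n using Int.induction_on with
  | zero => exact h.of_iso ((shiftFunctorZero T ℤ).symm.app Z)
  | succ n ih => exact ih.up.of_iso ((shiftFunctorAdd T (n : ℤ) 1).symm.app Z)
  | pred n ih => exact ih.down.of_iso ((shiftFunctorAdd T (-(n : ℤ)) (-1)).symm.app Z)

/-- The cofibre of the transition map of the desuspended tower. -/
theorem cofIn_i (J : Tow T) (s : ℕ) : M.CofIn (Thk (fun Z => ∃ s, Z = J.W s)) (J.i s) := by
  refine M.CofIn.comp (thk_extClosed _) ?_ (M.CofIn.of_isIso (thk_extClosed _)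
    ((Tow.shN s).inv.app (J.J s)))
  obtain ⟨w, hw⟩ := exists_dist_shift
    (rot_of_distTriang _ (rot_of_distTriang _ (J.dist s))) (-((s + 1 : ℕ) : ℤ))
  exact ⟨_, _, w, hw, ((Thk.base ⟨s, rfl⟩ : Thk (fun Z => ∃ s, Z = J.W s) (J.W s)).up).shift _⟩

theorem cofIn_twr (J : Tow T) (N : ℕ) :
    M.CofIn (Thk (fun Z => ∃ s, Z = J.W s)) (twr J.i 0 N (Nat.zero_le N)) := by
  induction N with
  | zero =>
    rw [twr_self]
    exact M.CofIn.of_isIso (thk_extClosed _) _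
  | succ N ih =>
    rw [← i_twr J.i 0 N (Nat.zero_le N)]
    exact M.CofIn.comp (thk_extClosed _) (cofIn_i J N) ih

theorem thk_of_twr (J : Tow T) {N : ℕ} (h : twr J.i 0 N (Nat.zero_le N) = 0) :
    Thk (fun Z => ∃ s, Z = J.W s) (J.J 0) := by
  obtain ⟨Z, g, w, D, hZ⟩ := cofIn_twr J N
  rw [h] at D
  obtain ⟨r, hr⟩ := Triangle.yoneda_exact₂ _ D (𝟙 (J.X 0)) zero_comp
  change Z ⟶ J.X 0 at r
  replace hr : 𝟙 (J.X 0) = g ≫ r := hr
  have h1 : Thk (fun Z => ∃ s, Z = J.W s) (J.X 0) := Thk.retract g r hr.symm hZ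
  refine h1.of_iso ?_
  have e : (J.J 0)⟦-((0 : ℕ) : ℤ)⟧ ≅ J.J 0 :=
    (shiftFunctorZero' T (-((0 : ℕ) : ℤ)) (by simp)).app (J.J 0)
  exact e

end pre

section mon

variable {T : Type u} [Category.{v} T] [Preadditive T] [HasZeroObject T]
    [HasShift T ℤ] [∀ n : ℤ, (shiftFunctor T n).Additive] [Pretriangulated T] [IsTriangulated T]
    [MonoidalCategory T] [SymmetricCategory T] [TensorTriangulated T] [MonoidalClosed T]
    [HasCoproducts.{0} T] [HasProducts.{0} T] [StableCat T]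

/-- **Nilpotence**, abstract form. -/
theorem twr_eq_zero (X : Tow T) {K : T} (F : LocFunctor K) {s₁ a N : ℕ}
    (hP : ∀ Z, FinEven Z → ∀ s, s₁ ≤ s → ∀ A, IsSh Z A →
      ∀ y : A ⟶ (X.map F.L).X (s + 1), y ≫ (X.map F.L).i s = 0)
    (hB : Built FinEven a (X.J N)) (hN : s₁ + a ≤ N) :
    twr (X.map F.L).i 0 N (Nat.zero_le N) = 0 := by
  let φ := Vale.Agent.P251.B.mapUnit X F.unit
  have h1 : φ.X N ≫ twr (X.map F.L).i s₁ N (by omega) = 0 :=
    built_tow _ s₁ hP hB s₁ N (by omega) le_rfl hN _ (isSh_shift _ _) _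
  have h2 : φ.X N ≫ twr (X.map F.L).i 0 N (Nat.zero_le N) = 0 := by
    rw [← twr_comp (X.map F.L).i 0 s₁ N (Nat.zero_le _) (by omega), ← Category.assoc, h1,
      zero_comp]
  have h3 : KEq K (φ.X N) := (F.keq (X.J N)).shift (-(N : ℤ))
  have h4 : IsLocal K ((X.map F.L).X 0) := (F.isLocal (X.J 0)).shift _
  exact h3.hom_ext h4 (h2.trans comp_zero.symm)

/-- **Nilpotence**: `L (J 0 ⊗ M)` is in the thick subcategory generated by the `L (W s ⊗ M)`. -/
theorem thk_tow_coeff (X : Tow T) (C : T) {K R : T} (F : LocFunctor K)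
    (hR : ∀ s, R ◁ X.c s = 0) {a : ℕ} (hKR : Built (IsRMul R) a K) {b : ℕ}
    (hKF : Built FinEven b K)
    (hodd : ∀ (s : ℕ) (n : ℤ), (n + s) % 2 = 1 →
      ∀ z : ((X.map (tensorRight C ⋙ F.L)).couple (𝟙_ T)).E s n, z = 0)
    (s₁ : ℕ) (hvan : ∀ s, s₁ ≤ s → ∀ n : ℤ,
      ((X.map (tensorRight C ⋙ F.L)).couple (𝟙_ T)).Van s n)
    {c : ℕ} (hB : ∀ N, Built FinEven c (X.J N ⊗ C)) :
    Thk (fun Z => ∃ s, Z = F.L.obj (X.W s ⊗ C)) (F.L.obj (X.J 0 ⊗ C)) := by
  have e := X.map_map (tensorRight C) F.L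
  have hodd' : ∀ (s : ℕ) (n : ℤ), (n + s) % 2 = 1 →
      ∀ z : (((X.map (tensorRight C)).map F.L).couple (𝟙_ T)).E s n, z = 0 := by
    rw [e]; exact hodd
  have hvan' : ∀ s, s₁ ≤ s → ∀ n : ℤ,
      (((X.map (tensorRight C)).map F.L).couple (𝟙_ T)).Van s n := by
    rw [e]; exact hvan
  set Y := X.map (tensorRight C) with hY
  have hpar : ∀ s, ParZero 0 ((Y.map F.L).W s) := fun s =>
    (Y.map F.L).parZero_of_couple (hodd' s)
  have hex : ∀ s, s₁ ≤ s → Ex (𝟙_ T) ((Y.map F.L).d s) ((Y.map F.L).d (s + 1)) := fun s hs =>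
    (Y.map F.L).ex_of_van (hvan' s hs)
  obtain ⟨H, π, hH, hz⟩ := exists_hol_isZero (Vale.Agent.P251.B.mapUnit Y F.unit)
    (fun s => F.isIso _) (fun s => F.isLocal _) (X.whisker_map_tensorRight_c hR C) hKR hKF hpar
    s₁ hex
  have h1 := twr_eq_zero Y F (s₁ := s₁) (a := c) (N := s₁ + c)
    (fun Z hZ s hs A hA y => finEven_tow hH hz hpar s₁ hex hZ hs hA y) (hB _) le_rfl
  exact thk_of_twr (Y.map F.L) h1

end mon

end Vale.Agent.P261.H621
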