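import Vale.Agent.P261.H621.Nil2

/-!
# P261 (second hand-in): `L (S/p)` is in the thick subcategory generated by the `L N_s`

`thk_LC`: under the hypotheses of `TopMain` and if the tensor powers of the cofibre of the unit of
`MU` are telescopes of finite even complexes, `L (S/p)` is in the thick subcategory generated by
the objects `L N_s`, `N_s = (R^{⊗ (s+1)} ⊗ S/p) ⊗ PS`.
-/

open CategoryTheory MonoidalCategory Limits MonObj Pretriangulated

set_option linter.unusedSectionVars false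

universe v u

namespace Vale.Agent.P261.H621

open Vale.Agent.P251 Vale.Agent.P251.T Vale.Agent.P251.S Vale.Agent.P251.M

section cobar

variable {C : Type u} [Category.{v} C] [Preadditive C] (K : CobarData C)

/-- the projection from the cobar complex to the `E_1`-complex has a section -/
theorem exists_section_q (s : ℕ) (Y : C) :
    ∃ σ : K.M.obj (K.B s Y) ⟶ K.Q (s + 1) Y, σ ≫ K.q s Y = 𝟙 _ := by
  induction s generalizing Y with
  | zero => exact ⟨𝟙 _, Category.comp_id _⟩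
  | succ s ih =>
    obtain ⟨τ, hτ⟩ := ih (K.G.obj Y)
    obtain ⟨σ, hσ, -⟩ := K.split Y
    refine ⟨τ ≫ K.Qm s σ, ?_⟩
    have h1 : K.Qm s σ ≫ K.Qm (s + 1) (K.ρ Y) = 𝟙 _ := by
      rw [K.Qm_succ s (K.ρ Y), ← K.Qm_comp, hσ, K.Qm_id]
    rw [K.q_succ, Category.assoc, reassoc_of% h1]
    exact hτ

end cobar

variable {T : Type u} [Category.{v} T] [Preadditive T] [HasZeroObject T]
    [HasShift T ℤ] [∀ n : ℤ, (shiftFunctor T n).Additive] [Pretriangulated T] [IsTriangulated T]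
    [MonoidalCategory T] [SymmetricCategory T] [TensorTriangulated T] [MonoidalClosed T]
    [HasCoproducts.{0} T] [HasProducts.{0} T] [StableCat T]

/-- The tensor powers of the cofibre of the unit are telescopes of finite even complexes. -/
def BCells {R : T} [MonObj R] (U : UnitCof R) : Prop :=
  ∀ s : ℕ, ∃ (F : ℕ ⥤ T) (κ : ∀ j, F.obj j ⟶ U.cobar.B s (𝟙_ T)),
    M.IsTel F (U.cobar.B s (𝟙_ T)) κ ∧ ∀ j, EvenCell T 0 (F.obj j)

theorem BCells.built {R : T} [MonObj R] {U : UnitCof R} (h : BCells U) {C : T} {c : ℕ}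
    (hC : Built FinEven c C) (s : ℕ) :
    Built FinEven ((1 + 1) * c) (U.cobar.B s (𝟙_ T) ⊗ C) := by
  obtain ⟨F, κ, hF, hc⟩ := h s
  exact Built.tensor (fun _ _ h h' => h.tensor h')
    (Built.tel ((isTel_iff _ _ _).1 hF) (fun n => Built.base (FinEven.of_evenCell (hc n)))) hC

/-- `L X` is a retract of `L (X ⊗ PS)` -/
theorem exists_retract_PS {K : T} (F : LocFunctor K) (X : T) :
    ∃ (i : F.L.obj X ⟶ F.L.obj (X ⊗ (stdEven T).PS)) (r : F.L.obj (X ⊗ (stdEven T).PS) ⟶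
      F.L.obj X), i ≫ r = 𝟙 _ := by
  have h0 : (stdEven T).S (-0) = 𝟙_ T := by rw [neg_zero]; rfl
  let e : X ≅ X ⊗ (stdEven T).S (-0) := (ρ_ X).symm ≪≫ whiskerLeftIso X (eqToIso h0.symm)
  refine ⟨F.L.map e.hom ≫ F.L.map (X ◁ (stdEven T).inPS (-0)),
    F.L.map (X ◁ (stdEven T).pr (-0)) ≫ F.L.map e.inv, ?_⟩
  rw [Category.assoc, reassoc_of% (retractS (E := stdEven T) F X 0), ← F.L.map_comp,
    Iso.hom_inv_id, CategoryTheory.Functor.map_id]

variable (D : I.MUData T) {p h : ℕ} [hp : Fact p.Prime]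
  {C : T} {i : 𝟙_ T ⟶ C} {δ : C ⟶ (𝟙_ T)⟦(1 : ℤ)⟧}
  (Dk : KosData D.P (p : ℤ) h (D.vs p)) (F : LocFunctor Dk.K)

theorem thk_LC (hp2 : p ≠ 2) (hh : 1 ≤ h)
    (hC : Triangle.mk ((p : ℤ) • 𝟙 (𝟙_ T)) i δ ∈ distTriang T) (hd : ¬ (p - 1) ∣ h)
    (U : UnitCof D.R) (hB : BCells U) :
    Thk (fun Z => ∃ s, Z = F.L.obj (GD.Ns D C s)) (F.L.obj (𝟙_ T ⊗ C)) := by
  obtain ⟨c, hc⟩ := built_finEven_RPS D
  obtain ⟨b, hKF⟩ := Dk.built_finEven hc
  have hCb : Built FinEven (1 + 1) C :=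
    Built.cofibre hC (Built.base FinEven.one) (Built.base FinEven.one)
  have h1 := thk_tow_coeff (U.tow (𝟙_ T)) C F (U.whisker_tow_c _)
    (Dk.built_isRMul (built_isRMul_RPS D.R _)) hKF
    (fun s n hn => UnitCof.E_eq_zero_of_odd (grOut D U hp2 hh hC Dk F).odd s n
      (Int.odd_iff.2 hn)) (h * h)
    (by
      intro s hs n b hb
      exact cpl_sparse D Dk F hp2 hh hC hd U (s + 1) n (fun h => by omega)
        ((Couple.mem_EZ _).2 hb))
    (fun N => hB.built hCb N)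
  refine h1.mono ?_
  rintro _ ⟨s, rfl⟩
  -- `R ⊗ B s` is a retract of `R^{⊗ (s+1)}`
  obtain ⟨σ, hσ⟩ := exists_section_q U.cobar s (𝟙_ T)
  obtain ⟨j, r, hjr⟩ := exists_retract_PS F (Am D.R (s + 1) ⊗ C)
  let e := D.qAm U (s + 1)
  let a : (U.tow (𝟙_ T)).W s ⟶ Am D.R (s + 1) := σ ≫ e.hom
  let b' : Am D.R (s + 1) ⟶ (U.tow (𝟙_ T)).W s := e.inv ≫ U.cobar.q s (𝟙_ T)
  have hab : a ≫ b' = 𝟙 _ := by
    change (σ ≫ e.hom) ≫ e.inv ≫ U.cobar.q s (𝟙_ T) = _
    rw [Category.assoc, Iso.hom_inv_id_assoc]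
    exact hσ
  refine Thk.retract (F.L.map (a ▷ C) ≫ j) (r ≫ F.L.map (b' ▷ C)) ?_ (Thk.base ⟨s, rfl⟩)
  rw [Category.assoc, reassoc_of% hjr, ← F.L.map_comp, ← comp_whiskerRight, hab]
  simp

end Vale.Agent.P261.H621
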